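import Vale.Agent.P157.Parisi.Sphere.Cavity.Finite

/-!
The change of the perturbation when a coordinate is added.
-/

noncomputable section

open MeasureTheory ProbabilityTheory Filter
open scoped BigOperators NNReal Topology

namespace Vale.Agent.P157.Parisi.Sphere.Cavity

open Vale.Agent.P168.Limit (logZ)
open Vale.Agent.P157.Parisi.Cavity (Base baseLaw amp amp_sq_le sum_amp_sq_le field_compare
  abs_integral_pi_sub measurable_logZ_of measurePreserving_init ae_xLaw scale_sq_step)

variable {N L n : ℕ} {P : Pts N} {f : ℝ → ℝ} {A s : ℝ} {x : Fin L → ℝ}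

/-- One more power and a stronger perturbation. -/
theorem strength_compare (hN : 0 < N) (H : Conf P → ℝ) {s s' : ℝ} (hs : s ^ 2 ≤ s' ^ 2)
    {x : Fin (L + 1) → ℝ} (hx : ∀ i, x i ∈ Set.Icc (1 : ℝ) 2) :
    |∫ J, (logZ fun σ => H σ + pertH s' x J σ) ∂gam (PertIdx N (L + 1)) -
      ∫ J, (logZ fun σ => H σ + pertH s (fun i => x i.castSucc) J σ) ∂gam (PertIdx N L)| ≤
      2 * (s' ^ 2 - s ^ 2) + 2 * s' ^ 2 * (1 / 4) ^ (L + 1) := by
  set y : Fin (L + 1) → ℝ :=
    Fin.snoc (fun i => Real.sqrt (s' ^ 2 - s ^ 2) * x i.castSucc) (s' * x (Fin.last L)) with hy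
  have hamp : ∀ p : Fin L, amp 1 y p.castSucc ^ 2 =
      amp s' x p.castSucc ^ 2 - amp s (fun i => x i.castSucc) p ^ 2 := by
    intro p
    simp only [amp, hy, Fin.snoc_castSucc, Fin.val_castSucc, mul_pow,
      Real.sq_sqrt (sub_nonneg.2 hs)]
    ring
  have hlast : amp 1 y (Fin.last L) = amp s' x (Fin.last L) := by
    simp [amp, hy, Fin.snoc_last]
  have h₁ : ∀ σ τ : Conf P, dot (pc s' x (unitVec σ)) (pc s' x (unitVec τ)) =
      dot (pc s (fun i => x i.castSucc) (unitVec σ)) (pc s (fun i => x i.castSucc) (unitVec τ)) +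
        dot (pc 1 y (unitVec σ)) (pc 1 y (unitVec τ)) := by
    intro σ τ
    simp only [pcov, Fin.sum_univ_castSucc, hamp, hlast, Fin.val_castSucc, sub_mul,
      Finset.sum_sub_distrib]
    ring
  have hv : ∀ σ : Conf P, ∑ c, pc 1 y (unitVec σ) c ^ 2 ≤
      4 * (s' ^ 2 - s ^ 2) + 4 * s' ^ 2 * (1 / 4) ^ (L + 1) := by
    intro σ
    rw [pvar hN, Fin.sum_univ_castSucc, hlast]
    refine add_le_add ?_ ((amp_sq_le hx (Fin.last L)).trans_eq (by simp))
    have := sum_amp_sq_le (s := Real.sqrt (s' ^ 2 - s ^ 2)) (fun i => hx (Fin.castSucc i))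
    rw [Real.sq_sqrt (sub_nonneg.2 hs)] at this
    refine le_of_eq_of_le (Finset.sum_congr rfl fun p _ => ?_) this
    simp [amp, hy, Fin.snoc_castSucc]
  have := field_compare H (fun σ : Conf P => pc s' x (unitVec σ))
    (fun σ => pc s (fun i => x i.castSucc) (unitVec σ))
    (fun σ => pc s (fun i => x i.castSucc) (unitVec σ)) (fun σ => pc 1 y (unitVec σ))
    (fun _ (_ : Fin 0) => (0 : ℝ)) h₁
    (fun σ τ => by simp) hv
    (fun σ => le_trans (by simp) (le_trans (Finset.sum_nonneg fun c _ => sq_nonneg _) (hv σ)))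
  simp only [pertH_field]
  linarith

lemma abs_logPartS_le (hN : 0 < N) (hf : Smooth f A) (hx : ∀ i, x i ∈ Set.Icc (1 : ℝ) 2)
    (μ : ℝ) : |logPartS P f s x μ| ≤ A * μ.toNNReal + 2 * s ^ 2 := by
  rw [logPartS_eq hf]
  have hc := Vale.Agent.P168.Toolkit.integrable_count μ.toNNReal
  refine (abs_integral_le_integral_abs).trans ((integral_mono (integrable_logZn hN hf hx _).abs
    ((hc.const_mul A).add (integrable_const (2 * s ^ 2)))
    fun n => (abs_logZn_le hN hf hx).trans_eq ?_).trans_eq ?_)
  · simp only [Pi.add_apply]; ring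
  · simp only [Pi.add_apply]
    rw [integral_add (hc.const_mul A) (integrable_const _), integral_const_mul,
      Vale.Agent.P168.Toolkit.integral_count]
    simp

lemma measurable_logPartS (hf : Smooth f A) (μ : ℝ) :
    Measurable fun x : Fin L → ℝ => logPartS P f s x μ := by
  simp only [logPartS_eq hf]
  have h : ∀ n, Measurable fun x : Fin L → ℝ => logZn P n f s x := fun n => by
    have hj : Measurable fun p : (Fin L → ℝ) × Base N L n => logZ (ham (P := P) f s p.1 p.2) := by
      refine measurable_logZ_of fun σ => ?_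
      refine ((measurable_patH hf σ).comp (measurable_fst.comp measurable_snd)).add ?_
      unfold pertH; fun_prop
    exact (hj.stronglyMeasurable.integral_prod_right' (ν := baseLaw N L n)).measurable
  exact ((measurable_from_prod_countable_left (f := fun p : (Fin L → ℝ) × ℕ =>
    logZn P p.2 f s p.1 - Real.log P.K) fun n => (h n).sub_const _).stronglyMeasurable
      |>.integral_prod_right' (ν := poissonMeasure μ.toNNReal)).measurable

lemma logPartS_change (hN : 0 < N) (hf : Smooth f A) {s s' : ℝ} (hs : s ^ 2 ≤ s' ^ 2)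
    {x : Fin (L + 1) → ℝ} (hx : ∀ i, x i ∈ Set.Icc (1 : ℝ) 2) (μ : ℝ) :
    |logPartS P f s' x μ - logPartS P f s (fun i => x i.castSucc) μ| ≤
      2 * (s' ^ 2 - s ^ 2) + 2 * s' ^ 2 * (1 / 4) ^ (L + 1) := by
  rw [logPartS_eq hf, logPartS_eq hf]
  refine abs_integral_pi_sub (integrable_logZn hN hf hx _)
    (integrable_logZn hN hf (fun i => hx _) _) fun n => ?_
  rw [sub_sub_sub_cancel_right, logZn_iter hf, logZn_iter hf]
  exact abs_integral_pi_sub (integrable_logZn_inner hf) (integrable_logZn_inner hf)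
    fun g => strength_compare hN (fun σ => patH f g σ) hs hx

end Cavity

open Vale.Agent.P157.Parisi.Sphere.Cavity in
open Vale.Agent.P157.Parisi.Cavity (measurePreserving_init ae_xLaw scale_sq_step) in
/-- Module G2. -/
theorem pertChangeS : PertChangeS := by
  intro α A C f _ hf P μ _ _
  have hbd : ∀ N, |(∫ x, logPartS (P (N + 1)) f (scale (N + 1)) x (μ N) ∂xLaw (N + 1)) -
      ∫ x, logPartS (P (N + 1)) f (scale N) x (μ N) ∂xLaw N| ≤
      2 * (scale (N + 1) ^ 2 - scale N ^ 2) +
        2 * scale (N + 1) ^ 2 * (1 / 4) ^ (N + 1) := by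
    intro N
    have hmp := measurePreserving_init N
    rw [← hmp.map_eq, integral_map hmp.measurable.aemeasurable
      (measurable_logPartS hf _).aestronglyMeasurable]
    have i1 : Integrable (fun x => logPartS (P (N + 1)) f (scale (N + 1)) x (μ N))
        (xLaw (N + 1)) :=
      Integrable.of_bound (measurable_logPartS hf _).aestronglyMeasurable
        (A * (μ N).toNNReal + 2 * scale (N + 1) ^ 2)
        ((ae_xLaw _).mono fun x hx => abs_logPartS_le N.succ_pos hf hx _)
    have i2 : Integrable (fun x : Fin (N + 1) → ℝ =>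
        logPartS (P (N + 1)) f (scale N) (fun i : Fin N => x i.castSucc) (μ N)) (xLaw (N + 1)) :=
      Integrable.of_bound ((measurable_logPartS hf _).comp hmp.measurable).aestronglyMeasurable
        (A * (μ N).toNNReal + 2 * scale N ^ 2)
        ((ae_xLaw _).mono fun x hx => abs_logPartS_le N.succ_pos hf (fun i => hx _) _)
    rw [← integral_sub i1 i2]
    refine (abs_integral_le_integral_abs).trans ((integral_mono_ae (i1.sub i2).abs
      (integrable_const _) ((ae_xLaw _).mono fun x hx =>
        logPartS_change N.succ_pos hf (scale_sq_step N).1 hx _)).trans_eq (by simp))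
  refine squeeze_zero_norm' (a := fun N : ℕ => 2 * (N : ℝ) ^ (-(1 / 4 : ℝ)) +
    2 * (((N + 1 : ℕ) : ℝ) * (1 / 4) ^ (N + 1))) ?_ ?_
  · filter_upwards [eventually_gt_atTop 0] with N hN
    refine (hbd N).trans (add_le_add (by linarith [(scale_sq_step N).2.2 hN]) ?_)
    rw [mul_assoc, Nat.cast_add, Nat.cast_one]
    gcongr
    exact (scale_sq_step N).2.1
  · have h1 := (tendsto_rpow_neg_atTop (by norm_num : (0 : ℝ) < 1 / 4)).comp
      tendsto_natCast_atTop_atTop
    have h2 := (tendsto_self_mul_const_pow_of_lt_one (by norm_num : (0 : ℝ) ≤ 1 / 4)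
      (by norm_num)).comp (tendsto_add_atTop_nat 1)
    simpa using (h1.const_mul 2).add (h2.const_mul 2)

end Vale.Agent.P157.Parisi.Sphere
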