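import Vale.Agent.P157.Parisi.Sphere.Cavity.Compare
import Vale.Agent.P157.Parisi.Cavity.Change

/-!
Reduction of `logPartS` and `cavVal` on finite sets of unit vectors to finitely many patterns.
-/

noncomputable section

open MeasureTheory ProbabilityTheory
open scoped BigOperators NNReal

namespace Vale.Agent.P157.Parisi.Sphere.Cavity

open Vale.Agent.P168.Limit (logZ gw gav)
open Vale.Agent.P168.Limit.SelfAvg (field abs_field_le)
open Vale.Agent.P157.Parisi.Cavity (Base baseLaw jBound integrable_jBound integrable_base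
  integral_disLaw measurable_logZ_of bCav abs_clampT_le measurePreserving_take_real amp
  amp_sq_le sum_amp_sq_le field_compare abs_integral_pi_sub)
open Vale.Agent.P168.Toolkit (integrable_poisson_of_linear)

variable {N L n R m : ℕ} {P : Pts N} {f : ℝ → ℝ} {A s T : ℝ} {x : Fin L → ℝ}

/-- The fields of the patterns at a configuration. -/
def fld (g : Fin n → Fin N → ℝ) (σ : Conf P) : Fin n → ℝ := fun a => dot (g a) (unitVec σ)

/-- The pattern part. -/
def patH (f : ℝ → ℝ) (g : Fin n → Fin N → ℝ) (σ : Conf P) : ℝ := ∑ a, f (fld g σ a)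

lemma abs_patH_le (hf : Smooth f A) (g : Fin n → Fin N → ℝ) (σ : Conf P) :
    |patH f g σ| ≤ n * A :=
  (Finset.abs_sum_le_sum_abs _ _).trans <|
    (Finset.sum_le_card_nsmul _ _ A fun _ _ => hf.b0 _).trans_eq (by simp)

/-- The Hamiltonian. -/
def ham (f : ℝ → ℝ) (s : ℝ) (x : Fin L → ℝ) (b : Base N L n) (σ : Conf P) : ℝ :=
  patH f b.1 σ + pertH s x b.2 σ

lemma measurable_fld (σ : Conf P) (a : Fin n) :
    Measurable fun g : Fin n → Fin N → ℝ => fld g σ a := by
  unfold fld dot; fun_prop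

lemma measurable_patH (hf : Smooth f A) (σ : Conf P) :
    Measurable fun g : Fin n → Fin N → ℝ => patH f g σ :=
  Finset.measurable_sum _ fun a _ => hf.d0.continuous.measurable.comp (measurable_fld σ a)

lemma measurable_ham (hf : Smooth f A) (σ : Conf P) :
    Measurable fun b : Base N L n => ham f s x b σ := by
  refine ((measurable_patH hf σ).comp measurable_fst).add ?_
  unfold pertH; fun_prop

/-- The mean of `log Z` with `n` patterns. -/
def logZn (P : Pts N) (n : ℕ) (f : ℝ → ℝ) (s : ℝ) (x : Fin L → ℝ) : ℝ :=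
  ∫ b : Base N L n, logZ (ham (P := P) f s x b) ∂baseLaw N L n

/-- The coefficient sums of the perturbation. -/
def pSum (P : Pts N) (s : ℝ) (x : Fin L → ℝ) (c : PertIdx N L) : ℝ :=
  pcSum (X := Conf P) s x unitVec c

lemma log_card_nonneg (P : Pts N) : 0 ≤ Real.log (P.K : ℝ) :=
  Real.log_nonneg (Nat.one_le_cast.2 P.pos)

lemma logZ_zero (P : Pts N) : logZ (fun _ : Conf P => (0 : ℝ)) = Real.log (P.K : ℝ) := by
  simp only [logZ, Real.exp_zero, Finset.sum_const, nsmul_eq_mul, mul_one, Finset.card_univ]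
  exact congrArg (fun k : ℕ => Real.log (k : ℝ)) (Fintype.card_fin P.K)

lemma abs_logZ_ham_le (hf : Smooth f A) (b : Base N L n) :
    |logZ (ham (P := P) f s x b) - Real.log (P.K : ℝ)| ≤
      n * A + ∑ c, pSum P s x c * |b.2 c| := by
  have hb := Vale.Agent.P168.Limit.SelfAvg.abs_logZ_sub_le' (fun _ : Conf P => (0 : ℝ))
    (fun σ => ham f s x b σ) (c := n * A + jBound (pSum P s x) b.2)
    fun σ => (abs_add_le _ _).trans (add_le_add (abs_patH_le hf _ _) (by
      rw [pertH_eq]
      refine (Finset.abs_sum_le_sum_abs _ _).trans (Finset.sum_le_sum fun c _ => ?_)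
      rw [abs_mul, mul_comm]
      exact mul_le_mul_of_nonneg_right (Finset.single_le_sum
        (f := fun q : Conf P => |pc s x (unitVec q) c|) (fun q _ => abs_nonneg _)
        (Finset.mem_univ σ)) (abs_nonneg _)))
  simpa [logZ_zero, jBound] using hb

lemma integrable_logZ_ham (hf : Smooth f A) :
    Integrable (fun b : Base N L n => logZ (ham (P := P) f s x b)) (baseLaw N L n) := by
  refine integrable_base (K := Real.log (P.K : ℝ) + n * A) (k := pSum P s x)
    (measurable_logZ_of (measurable_ham hf)) fun b => ?_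
  have h1 := abs_le.1 (abs_logZ_ham_le (P := P) (s := s) (x := x) hf b)
  have h0 := log_card_nonneg P
  unfold jBound
  rw [abs_le]
  constructor <;> linarith

theorem logPartS_eq (hf : Smooth f A) (μ : ℝ) :
    logPartS P f s x μ = ∫ n, (logZn P n f s x - Real.log P.K) ∂poissonMeasure μ.toNNReal := by
  have h := integral_disLaw μ
    (fun n (b : Base N L n) => logZ (ham (P := P) f s x b) - Real.log P.K)
    (fun n => (measurable_logZ_of (measurable_ham hf)).sub_const _) (K₀ := 0) (K := A)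
    (k := pSum P s x) (fun n b => (abs_logZ_ham_le hf b).trans_eq (by unfold jBound; ring))
  refine (Eq.trans ?_ h).trans (integral_congr_ae (ae_of_all _ fun n => ?_))
  · refine integral_congr_ae (ae_of_all _ fun d => ?_)
    show Real.log ((∑ σ, Real.exp (totalH f s x d σ)) / P.K) = _
    rw [Real.log_div (Vale.Agent.P168.Limit.sum_exp_pos _).ne' (Nat.cast_ne_zero.2 P.pos.ne')]
    simp [logZ, ham, patH, fld, totalH, Finset.sum_range]
  · show ∫ b, (logZ (ham (P := P) f s x b) - _) ∂baseLaw N L n = _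
    rw [integral_sub (integrable_logZ_ham hf) (integrable_const _)]
    simp [logZn]

lemma logZn_iter (hf : Smooth f A) :
    logZn P n f s x = ∫ g, (∫ J, (logZ fun σ : Conf P => patH f g σ + pertH s x J σ)
      ∂gam (PertIdx N L)) ∂Measure.pi fun _ : Fin n => gam (Fin N) :=
  integral_prod _ (integrable_logZ_ham hf)

lemma integrable_logZn_inner (hf : Smooth f A) :
    Integrable (fun g => ∫ J, (logZ fun σ : Conf P => patH f g σ + pertH s x J σ)
      ∂gam (PertIdx N L)) (Measure.pi fun _ : Fin n => gam (Fin N)) :=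
  (integrable_logZ_ham hf).integral_prod_left

lemma pvar (hN : 0 < N) (s : ℝ) (x : Fin L → ℝ) (σ : Conf P) :
    ∑ c, pc s x (unitVec σ) c ^ 2 = ∑ p, amp s x p ^ 2 := by
  have h := pcov s x (unitVec σ) (unitVec σ)
  rw [dot_self_unit hN] at h
  simpa [dot, sq] using h

lemma pertH_field (s : ℝ) (x : Fin L → ℝ) (J : PertIdx N L → ℝ) (σ : Conf P) :
    pertH s x J σ = field (fun σ : Conf P => pc s x (unitVec σ)) J σ :=
  Finset.sum_congr rfl fun _ _ => mul_comm _ _

/-- The perturbation costs at most half its variance. -/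
theorem pert_gap (hN : 0 < N) (H : Conf P → ℝ) (s : ℝ) {x : Fin L → ℝ}
    (hx : ∀ i, x i ∈ Set.Icc (1 : ℝ) 2) :
    |∫ J, (logZ fun σ => H σ + pertH s x J σ) ∂gam (PertIdx N L) - logZ H| ≤ 2 * s ^ 2 := by
  obtain ⟨h1, h2⟩ := Vale.Agent.P168.Limit.SelfAvg.field_gap H (fun σ => pc s x (unitVec σ))
    (v := 4 * s ^ 2) fun σ => (pvar hN s x σ).trans_le (sum_amp_sq_le hx)
  simp only [pertH_field]
  rw [abs_le]
  exact ⟨by nlinarith [sq_nonneg s], by linarith⟩

lemma abs_logZn_le (hN : 0 < N) (hf : Smooth f A) (hx : ∀ i, x i ∈ Set.Icc (1 : ℝ) 2) :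
    |logZn P n f s x - Real.log P.K| ≤ n * A + 2 * s ^ 2 := by
  rw [logZn_iter hf]
  have h := abs_integral_pi_sub (F := fun g : Fin n → Fin N → ℝ =>
      ∫ J, (logZ fun σ : Conf P => patH f g σ + pertH s x J σ) ∂gam (PertIdx N L))
    (G := fun _ => Real.log P.K) (integrable_logZn_inner hf) (integrable_const _)
    (c := n * A + 2 * s ^ 2) fun g => ?_
  · simpa using h
  · have h1 := abs_le.1 (pert_gap hN (fun σ : Conf P => patH f g σ) s hx)
    have h2 : |logZ (fun σ : Conf P => patH f g σ) - Real.log P.K| ≤ n * A := by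
      have := Vale.Agent.P168.Limit.SelfAvg.abs_logZ_sub_le' (fun _ : Conf P => (0 : ℝ))
        (fun σ => patH f g σ) (abs_patH_le hf g)
      simpa [logZ_zero] using this
    have h2' := abs_le.1 h2
    rw [abs_le]
    constructor <;> linarith

lemma integrable_logZn (hN : 0 < N) (hf : Smooth f A) (hx : ∀ i, x i ∈ Set.Icc (1 : ℝ) 2)
    (μ : ℝ≥0) : Integrable (fun n => logZn P n f s x - Real.log P.K) (poissonMeasure μ) :=
  integrable_poisson_of_linear μ (A := 2 * s ^ 2) (B := A) fun n =>
    (abs_logZn_le hN hf hx).trans_eq (by ring)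

/-- The cavity field at given pattern fields. -/
def cY (f : ℝ → ℝ) (N : ℕ) (S z : Fin n → ℝ) : ℝ := (∑ a, z a * deriv f (S a)) / Real.sqrt N

/-- The cavity exponent at given pattern fields. -/
def cB (f : ℝ → ℝ) (T : ℝ) (N : ℕ) (S : Fin n → ℝ) : ℝ :=
  (∑ a, (deriv (deriv f) (S a) - clampT T (S a) * deriv f (S a))) / (2 * N)

lemma abs_cB_le (hf : Smooth f A) (hT : 0 ≤ T) (S : Fin n → ℝ) :
    |cB f T N S| ≤ n * bCav A T N := by
  have hN : (0 : ℝ) ≤ 2 * N := by positivity
  rw [cB, abs_div, abs_of_nonneg hN, bCav, ← mul_div_assoc]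
  refine div_le_div_of_nonneg_right ((Finset.abs_sum_le_sum_abs _ _).trans
    ((Finset.sum_le_card_nsmul _ _ (A + T * A) fun a _ => ?_).trans_eq (by simp; ring))) hN
  refine (abs_sub _ _).trans (add_le_add (hf.b2 _) ?_)
  rw [abs_mul]
  exact mul_le_mul (abs_clampT_le hT _) (hf.b1 _) (abs_nonneg _) hT

lemma abs_cY_le (hf : Smooth f A) (hN : 0 < N) (S z : Fin n → ℝ) :
    |cY f N S z| ≤ A * ∑ a, |z a| := by
  have h : |∑ a, z a * deriv f (S a)| ≤ A * ∑ a, |z a| := by
    refine (Finset.abs_sum_le_sum_abs _ _).trans ?_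
    rw [Finset.mul_sum]
    exact Finset.sum_le_sum fun a _ => by
      rw [abs_mul, mul_comm A]; exact mul_le_mul_of_nonneg_left (hf.b1 _) (abs_nonneg _)
  rw [cY, abs_div, abs_of_nonneg (Real.sqrt_nonneg _)]
  exact (div_le_self (abs_nonneg _) (by
    rw [Real.one_le_sqrt, Nat.one_le_cast]; exact hN)).trans h

lemma cellW_nonneg (m j : ℕ) : 0 ≤ cellW m j := measureReal_nonneg

lemma cellW_le_one (m j : ℕ) : cellW m j ≤ 1 := measureReal_le_one

lemma cellW_zero_pos (hm : 0 < m) : 0 < cellW m 0 := by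
  rw [cellW]
  simp only [Nat.cast_zero, zero_div, zero_add]
  refine ENNReal.toReal_pos (fun h => ?_) (measure_ne_top _ _)
  have := gaussianReal_absolutelyContinuous' 0 one_ne_zero h
  rw [Real.volume_Ico, sub_zero, ENNReal.ofReal_eq_zero] at this
  exact absurd this (not_le.2 (by positivity))

lemma cellW_zero_le_gridSum (hm : 0 < m) (hR : 0 < R) (y b : ℝ) :
    2 * cellW m 0 ≤ gridSum R m y b := by
  refine le_trans (le_of_eq ?_) (Finset.single_le_sum (f := fun j : ℕ =>
    cellW m j * (2 * Real.cosh ((j : ℝ) / m * y) * Real.exp (((j : ℝ) / m) ^ 2 * b)))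
    (fun j _ => mul_nonneg (cellW_nonneg m j) (mul_nonneg
      (mul_nonneg zero_le_two (Real.cosh_pos _).le) (Real.exp_pos _).le))
    (Finset.mem_range.2 (Nat.mul_pos hR hm)))
  simp [mul_comm]

lemma gridSum_le {y b B : ℝ} (hb : |b| ≤ B) :
    gridSum R m y b ≤ (R * m : ℕ) * (2 * Real.cosh (R * y) * Real.exp ((R : ℝ) ^ 2 * B)) := by
  refine (Finset.sum_le_card_nsmul _ _ (2 * Real.cosh (R * y) * Real.exp ((R : ℝ) ^ 2 * B))
    fun j hj => ?_).trans_eq (by simp)
  refine (mul_le_of_le_one_left (by positivity) (cellW_le_one m j)).trans ?_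
  have hjm : (j : ℝ) / m ≤ R := by
    refine div_le_of_le_mul₀ (Nat.cast_nonneg _) (Nat.cast_nonneg _) ?_
    exact_mod_cast (Finset.mem_range.1 hj).le
  have h0 : (0 : ℝ) ≤ (j : ℝ) / m := by positivity
  refine mul_le_mul (mul_le_mul_of_nonneg_left ?_ zero_le_two) (Real.exp_le_exp.2 ?_)
    (Real.exp_pos _).le (mul_nonneg zero_le_two (Real.cosh_pos _).le)
  · rw [Real.cosh_le_cosh, abs_mul, abs_mul, abs_of_nonneg h0, Nat.abs_cast]
    exact mul_le_mul_of_nonneg_right hjm (abs_nonneg _)
  · calc ((j : ℝ) / m) ^ 2 * b ≤ ((j : ℝ) / m) ^ 2 * |b| :=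
          mul_le_mul_of_nonneg_left (le_abs_self _) (sq_nonneg _)
      _ ≤ (R : ℝ) ^ 2 * B :=
          mul_le_mul (pow_le_pow_left₀ h0 hjm 2) hb (abs_nonneg _) (sq_nonneg _)

lemma measurable_gridSum {α : Type*} [MeasurableSpace α] {F G : α → ℝ} (hF : Measurable F)
    (hG : Measurable G) : Measurable fun a => gridSum R m (F a) (G a) := by
  unfold gridSum
  fun_prop

/-- The cavity integrand. -/
def cavInt (P : Pts N) (f : ℝ → ℝ) (R m : ℕ) (T s : ℝ) (x : Fin L → ℝ) (b : Base N L n)
    (z : Fin n → ℝ) : ℝ :=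
  Real.log (gav (ham (P := P) f s x b) fun σ =>
    gridSum R m (cY f N (fld b.1 σ) z) (cB f T N (fld b.1 σ)))

/-- Its mean over the new coordinates of the patterns. -/
def cavMean (P : Pts N) (f : ℝ → ℝ) (R m : ℕ) (T s : ℝ) (x : Fin L → ℝ) (b : Base N L n) : ℝ :=
  ∫ z, cavInt P f R m T s x b z ∂gam (Fin n)

/-- The constant in the bound on the cavity integrand. -/
def gridC (R m : ℕ) : ℝ :=
  |Real.log (2 * cellW m 0)| + |Real.log (((R * m : ℕ) : ℝ) * 2)|

lemma abs_cavInt_le (hN : 0 < N) (hm : 0 < m) (hR : 0 < R) (hf : Smooth f A) (hT : 0 ≤ T)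
    (b : Base N L n) (z : Fin n → ℝ) :
    |cavInt P f R m T s x b z| ≤
      gridC R m + (R : ℝ) ^ 2 * (n * bCav A T N) + R * A * ∑ a, |z a| := by
  set U := ((R * m : ℕ) : ℝ) * 2 *
    Real.exp ((R : ℝ) * A * ∑ a, |z a| + (R : ℝ) ^ 2 * (n * bCav A T N))
  have hlo := Vale.Agent.P168.Limit.gav_mono (ham (P := P) f s x b) fun σ =>
    cellW_zero_le_gridSum (R := R) hm hR (cY f N (fld b.1 σ) z) (cB f T N (fld b.1 σ))
  have hhi := Vale.Agent.P168.Limit.gav_mono (ham (P := P) f s x b) (f := fun σ => gridSum R m (cY f N (fld b.1 σ) z) (cB f T N (fld b.1 σ))) (g := fun _ => U) fun σ =>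
    (gridSum_le (R := R) (m := m) (y := cY f N (fld b.1 σ) z) (abs_cB_le hf hT _)).trans (by
      simp only [U, Real.exp_add]
      rw [mul_assoc ((R * m : ℕ) : ℝ), ← mul_assoc 2]
      refine mul_le_mul_of_nonneg_left (mul_le_mul_of_nonneg_right
        (mul_le_mul_of_nonneg_left ?_ zero_le_two) (Real.exp_pos _).le) (Nat.cast_nonneg _)
      rw [← Real.cosh_abs, abs_mul, Nat.abs_cast]
      refine le_trans ?_ (Real.exp_le_exp.2 ((mul_le_mul_of_nonneg_left
        (abs_cY_le hf hN (fld b.1 σ) z) (Nat.cast_nonneg R)).trans_eq (mul_assoc _ _ _).symm))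
      rw [Real.cosh_eq]
      have h0 : (0 : ℝ) ≤ R * |cY f N (fld b.1 σ) z| := by positivity
      have := Real.exp_le_exp.2 (neg_le_self h0)
      linarith)
  rw [Vale.Agent.P168.Limit.gav_const] at hlo hhi
  have hc := mul_pos two_pos (cellW_zero_pos hm)
  have hk : (0 : ℝ) < ((R * m : ℕ) : ℝ) := Nat.cast_pos.2 (Nat.mul_pos hR hm)
  have h1 := Real.log_le_log hc hlo
  have h2 := Real.log_le_log (hc.trans_le hlo) hhi
  simp only [U] at h2
  rw [Real.log_mul (by positivity) (Real.exp_pos _).ne', Real.log_exp] at h2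
  have : (0 : ℝ) ≤ (R : ℝ) ^ 2 * (n * bCav A T N) + R * A * ∑ a, |z a| := by
    have hA := (abs_nonneg _).trans (hf.b0 0)
    have := (abs_nonneg _).trans (abs_cB_le (N := N) hf hT (fun _ : Fin n => (0 : ℝ)))
    positivity
  rw [cavInt, gridC, abs_le]
  constructor <;>
    linarith [abs_nonneg (Real.log (2 * cellW m 0)), neg_abs_le (Real.log (2 * cellW m 0)),
      le_abs_self (Real.log (((R * m : ℕ) : ℝ) * 2)), abs_nonneg (Real.log (((R * m : ℕ) : ℝ) * 2))]

lemma measurable_cavInt (hf : Smooth f A) :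
    Measurable fun p : Base N L n × (Fin n → ℝ) => cavInt P f R m T s x p.1 p.2 := by
  have hd1 := hf.d1.continuous.measurable
  have hd2 := hf.d2.continuous.measurable
  have hg : ∀ (a : Fin n) (σ : Conf P),
      Measurable fun p : Base N L n × (Fin n → ℝ) => fld p.1.1 σ a :=
    fun a σ => (measurable_fld σ a).comp (measurable_fst.comp measurable_fst)
  have hc : Measurable (clampT T) := by unfold clampT; fun_prop
  have hH : ∀ σ : Conf P, Measurable fun p : Base N L n × (Fin n → ℝ) => ham f s x p.1 σ :=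
    fun σ => (measurable_ham hf σ).comp measurable_fst
  unfold cavInt gav gw
  refine Real.measurable_log.comp (Finset.measurable_sum _ fun σ _ => ?_)
  refine ((hH σ).exp.div (Finset.measurable_sum _ fun τ _ => (hH τ).exp)).mul ?_
  refine measurable_gridSum ?_ ?_
  · unfold cY
    exact (Finset.measurable_sum _ fun a _ =>
      ((measurable_pi_apply a).comp measurable_snd).mul (hd1.comp (hg a σ))).div_const _
  · unfold cB
    exact (Finset.measurable_sum _ fun a _ =>
      (hd2.comp (hg a σ)).sub ((hc.comp (hg a σ)).mul (hd1.comp (hg a σ)))).div_const _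

lemma integrable_cavInt (hN : 0 < N) (hm : 0 < m) (hR : 0 < R) (hf : Smooth f A) (hT : 0 ≤ T)
    (b : Base N L n) : Integrable (cavInt P f R m T s x b) (gam (Fin n)) :=
  ((integrable_const (gridC R m + (R : ℝ) ^ 2 * (n * bCav A T N))).add
    ((integrable_coordAbs).const_mul (R * A))).mono'
    ((measurable_cavInt hf).comp measurable_prodMk_left).aestronglyMeasurable
    (ae_of_all _ fun z => abs_cavInt_le hN hm hR hf hT b z)

lemma abs_cavMean_le (hN : 0 < N) (hm : 0 < m) (hR : 0 < R) (hf : Smooth f A) (hT : 0 ≤ T)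
    (b : Base N L n) :
    |cavMean P f R m T s x b| ≤ gridC R m + ((R : ℝ) ^ 2 * bCav A T N + R * A) * n := by
  have hA := (abs_nonneg _).trans (hf.b0 0)
  have hi := integrable_finsetSum (Finset.univ : Finset (Fin n))
    fun a _ => integrable_abs_coord (ι := Fin n) a
  refine (abs_integral_le_integral_abs).trans ((integral_mono
    (integrable_cavInt hN hm hR hf hT b).abs
    ((integrable_const (gridC R m + (R : ℝ) ^ 2 * (n * bCav A T N))).add (hi.const_mul (R * A)))
    fun z => abs_cavInt_le hN hm hR hf hT b z).trans ?_)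
  simp only [Pi.add_apply]
  rw [integral_add (integrable_const _) (hi.const_mul (R * A)), integral_const_mul,
    integral_finsetSum _ fun a _ => integrable_abs_coord a, add_mul, ← add_assoc]
  simp only [integral_const, probReal_univ, one_smul]
  refine add_le_add (le_of_eq (by ring)) ?_
  refine mul_le_mul_of_nonneg_left ((Finset.sum_le_card_nsmul _ _ 1 fun a _ => ?_).trans_eq
    (by simp)) (by positivity)
  rw [integral_comp_eval (μ := fun _ : Fin n => gaussianReal 0 1) (f := fun y : ℝ => |y|)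
    (by fun_prop)]
  exact Vale.Agent.P168.Toolkit.integral_gauss_abs_le

theorem cavVal_eq (hN : 0 < N) (hm : 0 < m) (hR : 0 < R) (hf : Smooth f A) (hT : 0 ≤ T) (μ : ℝ) :
    cavVal P f R m T s x μ =
      ∫ n, (∫ b : Base N L n, cavMean P f R m T s x b ∂baseLaw N L n) ∂poissonMeasure μ.toNNReal := by
  rw [← integral_disLaw μ (fun n (b : Base N L n) => cavMean P f R m T s x b)
    (fun n => ((measurable_cavInt hf).stronglyMeasurable.integral_prod_right').measurable)
    (K₀ := gridC R m) (K := (R : ℝ) ^ 2 * bCav A T N + R * A) (k := fun _ => 0)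
    (fun n b => (abs_cavMean_le hN hm hR hf hT b).trans_eq (by simp [jBound]))]
  unfold cavVal
  refine congrArg (integral (disLaw N L μ)) (funext fun d => ?_)
  have hmp := measurePreserving_take_real d.1
  have hmm : Measurable
      (cavInt P f R m T s x ((fun a : Fin d.1 => d.2.1 a, d.2.2) : Base N L d.1)) :=
    Measurable.of_uncurry_left (f := fun (b : Base N L d.1) z => cavInt P f R m T s x b z)
      (measurable_cavInt (T := T) (s := s) (x := x) hf)
  show _ = ∫ z, cavInt P f R m T s x _ z ∂gam (Fin d.1)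
  rw [← hmp.map_eq, integral_map hmp.measurable.aemeasurable hmm.aestronglyMeasurable]
  refine integral_congr_ae (ae_of_all _ fun z => ?_)
  simp only [cavInt, gav, gw, sysState, cavY, cavB, cY, cB, fld, ham, patH, totalH,
    Finset.sum_range]

end Vale.Agent.P157.Parisi.Sphere.Cavity
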