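import Vale.Agent.P157.Parisi.Sphere.Cavity.Pert
import Vale.Agent.P157.Parisi.Cavity.Finite
import Vale.Agent.P157.Polar
import Vale.Agent.P157.Laws

/-!
A coupling of the discretised spheres of dimensions `N + 1` and `N` and of a spin on a grid,
through a Gaussian vector.
-/

noncomputable section

open MeasureTheory ProbabilityTheory Real
open scoped BigOperators

namespace Vale.Agent.P157.Parisi.Sphere.Cavity

open Vale.Agent.P157.Parisi.Cavity (measurePreserving_snoc)

variable {N k m R : ℕ}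

/-- The unit vector with last coordinate `e / √(N + 1)` over `u`. -/
def newV (u : Fin N → ℝ) (e : ℝ) : Fin (N + 1) → ℝ :=
  Fin.snoc (fun i => √(1 - e ^ 2 / (N + 1 : ℝ)) * u i) (e / √(N + 1 : ℝ))

lemma dot_snoc_snoc (a b : Fin N → ℝ) (c d : ℝ) :
    dot (Fin.snoc a c : Fin (N + 1) → ℝ) (Fin.snoc b d : Fin (N + 1) → ℝ) = dot a b + c * d := by
  simp [dot, Fin.sum_univ_castSucc]

lemma dot_mul_mul (a b : Fin N → ℝ) (c d : ℝ) :
    dot (fun i => c * a i) (fun i => d * b i) = c * d * dot a b := by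
  rw [dot, dot, Finset.mul_sum]
  exact Finset.sum_congr rfl fun i _ => by ring

lemma dot_newV (u v : Fin N → ℝ) (e e' : ℝ) :
    dot (newV u e) (newV v e') =
      √(1 - e ^ 2 / (N + 1 : ℝ)) * √(1 - e' ^ 2 / (N + 1 : ℝ)) * dot u v + e * e' / (N + 1 : ℝ) := by
  rw [newV, newV, dot_snoc_snoc, dot_mul_mul, div_mul_div_comm, Real.mul_self_sqrt (by positivity)]

lemma dot_newV_self {u : Fin N → ℝ} (hu : dot u u = 1) {e : ℝ} (he : e ^ 2 ≤ (N + 1 : ℝ)) :
    dot (newV u e) (newV u e) = 1 := by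
  rw [dot_newV, hu, mul_one, Real.mul_self_sqrt
    (sub_nonneg.2 ((div_le_one (by positivity)).2 he))]
  ring

lemma one_sub_sqrt_le {z : ℝ} (h0 : 0 ≤ z) (h1 : z ≤ 1) : 1 - √(1 - z) ≤ z := by
  have h := Real.sq_sqrt (show (0 : ℝ) ≤ 1 - z by linarith)
  have := Real.sqrt_nonneg (1 - z)
  nlinarith [Real.sqrt_le_one.2 (show 1 - z ≤ 1 by linarith)]

/-- The new coordinate changes overlaps by `O(1 / N)`. -/
lemma dot_newV_close {u v : Fin N → ℝ} (hu : dot u u = 1) (hv : dot v v = 1) {e e' B : ℝ}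
    (he : |e| ≤ B) (he' : |e'| ≤ B) (hB : B ^ 2 ≤ (N + 1 : ℝ)) :
    |dot (newV u e) (newV v e') - dot u v| ≤ 3 * B ^ 2 / (N + 1) := by
  have hM : (0 : ℝ) < N + 1 := by positivity
  have hd : ∀ e : ℝ, |e| ≤ B → |√(1 - e ^ 2 / (N + 1 : ℝ)) - 1| ≤ B ^ 2 / (N + 1) := by
    intro e he
    have h2 : e ^ 2 ≤ B ^ 2 := by rw [← sq_abs]; exact pow_le_pow_left₀ (abs_nonneg e) he 2
    rw [abs_sub_comm, abs_of_nonneg (sub_nonneg.2 (Real.sqrt_le_one.2 (by
      linarith [show (0 : ℝ) ≤ e ^ 2 / (N + 1) by positivity])))]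
    exact (one_sub_sqrt_le (by positivity) ((div_le_one hM).2 (h2.trans hB))).trans
      (div_le_div_of_nonneg_right h2 hM.le)
  set a := √(1 - e ^ 2 / (N + 1 : ℝ))
  set b := √(1 - e' ^ 2 / (N + 1 : ℝ))
  have ha := hd e he
  have hb := hd e' he'
  have hD := abs_dot_le_one hu hv
  have ha1 : |a| ≤ 1 := by
    rw [abs_of_nonneg (Real.sqrt_nonneg _)]
    exact Real.sqrt_le_one.2 (by linarith [show (0 : ℝ) ≤ e ^ 2 / (N + 1) by positivity])
  have hab : |a * b - 1| ≤ B ^ 2 / (N + 1) + B ^ 2 / (N + 1) := by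
    rw [show a * b - 1 = a * (b - 1) + (a - 1) by ring]
    exact (abs_add_le _ _).trans (add_le_add (by
      rw [abs_mul]; exact (mul_le_of_le_one_left (abs_nonneg _) ha1).trans hb) ha)
  rw [dot_newV, show a * b * dot u v + e * e' / (N + 1 : ℝ) - dot u v =
    (a * b - 1) * dot u v + e * e' / (N + 1 : ℝ) by ring]
  refine (abs_add_le _ _).trans ?_
  rw [abs_mul, abs_div, abs_mul, abs_of_pos hM]
  refine (add_le_add ((mul_le_of_le_one_right (abs_nonneg _) hD).trans hab)
    (div_le_div_of_nonneg_right (mul_le_mul he he' (abs_nonneg _) ((abs_nonneg _).trans he))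
      hM.le)).trans_eq ?_
  ring

/-- The spin of a cell. -/
def spin (m : ℕ) (j : Fin k) (b : Bool) : ℝ :=
  if b then (j : ℝ) / m else -((j : ℝ) / m)

/-- The cell of a real number. -/
def cellIdx (hk : 0 < k) (m : ℕ) (t : ℝ) : Fin k × Bool :=
  (⟨min ⌊|t| * m⌋₊ (k - 1), by omega⟩, decide (0 ≤ t))

lemma measurable_cellIdx (hk : 0 < k) : Measurable (cellIdx hk m) := by
  have hj : Measurable fun t : ℝ => (⟨min ⌊|t| * m⌋₊ (k - 1), by omega⟩ : Fin k) :=
    (measurable_of_countable (fun j : ℕ => (⟨min j (k - 1), by omega⟩ : Fin k))).comp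
      (Nat.measurable_floor.comp (continuous_abs.measurable.mul_const _))
  refine hj.prodMk (measurable_to_bool ?_)
  have e : (fun t : ℝ => decide (0 ≤ t)) ⁻¹' {true} = Set.Ici 0 := by
    ext t; simp
  rw [e]
  exact measurableSet_Ici

lemma cellIdx_floor (hm : 0 < m) (hk : 0 < R * m) {t : ℝ} (ht : |t| < R) :
    ((cellIdx hk m t).1 : ℕ) = ⌊|t| * m⌋₊ := by
  refine min_eq_left (Nat.le_sub_one_of_lt ((Nat.floor_lt (by positivity)).2 ?_))
  rw [Nat.cast_mul]
  exact mul_lt_mul_of_pos_right ht (Nat.cast_pos.2 hm)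

lemma spin_cellIdx (hm : 0 < m) (hk : 0 < R * m) {t : ℝ} (ht : |t| < R) :
    |spin m (cellIdx hk m t).1 (cellIdx hk m t).2 - t| ≤ 1 / m ∧
      |spin m (cellIdx hk m t).1 (cellIdx hk m t).2| ≤ R := by
  have hmr : (0 : ℝ) < m := Nat.cast_pos.2 hm
  set J : ℝ := (((cellIdx hk m t).1 : ℕ) : ℝ) with hJ
  have h0 : 0 ≤ J := Nat.cast_nonneg _
  have h1 : J ≤ |t| * m := by
    rw [hJ, cellIdx_floor hm hk ht]; exact Nat.floor_le (by positivity)
  have h2 : |t| * m < J + 1 := by
    rw [hJ, cellIdx_floor hm hk ht]; exact Nat.lt_floor_add_one _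
  have h3 : J / m ≤ |t| := (div_le_iff₀ hmr).2 h1
  have h4 : |t| < J / m + 1 / m := by rw [← add_div, lt_div_iff₀ hmr]; exact h2
  have hv : 0 ≤ J / (m : ℝ) := by positivity
  have hb : (cellIdx hk m t).2 = decide (0 ≤ t) := rfl
  rcases le_or_gt 0 t with h | h
  · rw [spin, hb, decide_eq_true h, if_pos rfl, ← hJ]
    rw [abs_of_nonneg h] at h3 h4 ht
    constructor <;> rw [abs_le] <;> constructor <;> linarith
  · rw [spin, hb, decide_eq_false h.not_ge, if_neg Bool.false_ne_true, ← hJ]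
    rw [abs_of_neg h] at h3 h4 ht
    constructor <;> rw [abs_le] <;> constructor <;> linarith

lemma cell_mass (hm : 0 < m) (hk : 0 < R * m) (p : Fin (R * m) × Bool) :
    cellW m p.1 ≤ ((gaussianReal 0 1).restrict {t | |t| < R}).real (cellIdx hk m ⁻¹' {p}) := by
  have hmr : (0 : ℝ) < m := Nat.cast_pos.2 hm
  rw [measureReal_restrict_apply ((measurable_cellIdx hk) (MeasurableSet.singleton p)), cellW]
  set s : Set ℝ := Set.Ico ((p.1 : ℕ) / m : ℝ) (((p.1 : ℕ) + 1) / m)
  have hin : ∀ t : ℝ, |t| ∈ s → decide (0 ≤ t) = p.2 →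
      t ∈ cellIdx hk m ⁻¹' {p} ∩ {t | |t| < R} := by
    intro t ht hb
    have hj : (p.1 : ℕ) < R * m := p.1.2
    have htR : |t| < R := by
      refine ht.2.trans_le ?_
      rw [div_le_iff₀ hmr]
      exact_mod_cast hj
    refine ⟨Prod.ext (Fin.ext ?_) hb, htR⟩
    rw [cellIdx_floor hm hk htR]
    exact (Nat.floor_eq_iff (by positivity)).2
      ⟨(div_le_iff₀ hmr).1 ht.1, (lt_div_iff₀ hmr).1 ht.2⟩
  rcases hp : p.2 with _ | _
  · have hneg : (gaussianReal 0 1).real s = (gaussianReal 0 1).real ((fun t : ℝ => -t) ⁻¹' s) := by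
      rw [← map_measureReal_apply measurable_neg measurableSet_Ico, gaussianReal_map_neg, neg_zero]
    have h0 : (gaussianReal 0 1).real ({0} : Set ℝ) = 0 := by
      have := nullSingletonClass_gaussianReal (μ := 0) (one_ne_zero : (1 : NNReal) ≠ 0)
      simp [measureReal_def]
    rw [hneg, ← measureReal_sdiff_null h0]
    refine measureReal_mono fun t ht => ?_
    have h1 : (p.1 : ℕ) / (m : ℝ) ≤ -t := ht.1.1
    have h2 : t < 0 := lt_of_le_of_ne
      (by linarith [show (0 : ℝ) ≤ (p.1 : ℕ) / (m : ℝ) by positivity]) (by simpa using ht.2)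
    exact hin t (by rw [abs_of_neg h2]; exact ht.1) (by rw [hp, decide_eq_false h2.not_ge])
  · refine measureReal_mono fun t ht => ?_
    have h2 : 0 ≤ t := le_trans (by positivity) ht.1
    exact hin t (by rw [abs_of_nonneg h2]; exact ht) (by rw [hp, decide_eq_true h2])

/-- A configuration with a given vector, if there is one. -/
def pick (P : Pts N) (v : Fin N → ℝ) : Conf P := by
  classical exact if h : ∃ σ : Conf P, unitVec σ = v then h.choose else default

lemma unitVec_pick {P : Pts N} {v : Fin N → ℝ} (h : ∃ σ : Conf P, unitVec σ = v) :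
    unitVec (pick P v) = v := by
  rw [pick, dif_pos h]; exact h.choose_spec

lemma measurable_pick (P : Pts N) : Measurable (pick P) := by
  refine measurable_to_countable' fun σ => ?_
  set F : Set (Fin N → ℝ) := Set.range (unitVec (P := P))
  have hF : F.Finite := Set.finite_range _
  have e : pick P ⁻¹' {σ} = (pick P ⁻¹' {σ} ∩ F) ∪ (pick P ⁻¹' {σ} ∩ Fᶜ) := by
    rw [← Set.inter_union_distrib_left, Set.union_compl_self, Set.inter_univ]
  rw [e]
  refine (hF.inter_of_right _).measurableSet.union ?_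
  have hout : ∀ v ∈ Fᶜ, pick P v = default := fun v hv => by
    rw [pick, dif_neg]; exact hv
  by_cases hσ : (default : Conf P) = σ
  · have : pick P ⁻¹' {σ} ∩ Fᶜ = Fᶜ :=
      Set.inter_eq_right.2 fun v hv => (hout v hv).trans hσ
    rw [this]; exact hF.measurableSet.compl
  · have : pick P ⁻¹' {σ} ∩ Fᶜ = ∅ :=
      Set.eq_empty_of_forall_notMem fun v hv => hσ ((hout v hv.2).symm.trans hv.1)
    rw [this]; exact MeasurableSet.empty

/-- `√N` times the direction. -/
def sph (y : Fin N → ℝ) : Fin N → ℝ := fun i => √N * dir y i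

lemma measurable_sph : Measurable (sph (N := N)) :=
  measurable_pi_lambda _ fun i => ((measurable_pi_apply i).comp measurable_dir).const_mul _

lemma abs_dot_le_nrm (a b : Fin N → ℝ) : |dot a b| ≤ nrm a * nrm b := by
  rw [dot, nrm, nrm, abs_le]
  constructor
  · have := Real.sum_mul_le_sqrt_mul_sqrt Finset.univ (fun i => -a i) b
    simp only [neg_sq, neg_mul, Finset.sum_neg_distrib] at this
    linarith
  · exact Real.sum_mul_le_sqrt_mul_sqrt Finset.univ a b

lemma sphereLaw_sph (hN : 0 < N) : sphereLaw N = (gam (Fin N)).map sph := sphereLaw_eq hN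

/-- Overlaps of nearby unit vectors. -/
lemma dot_close {a b c d : Fin N → ℝ} (hb : dot b b = 1) (hc : dot c c = 1) {p q : ℝ}
    (hp : nrm (a - c) ≤ p) (hq : nrm (b - d) ≤ q) : |dot a b - dot c d| ≤ p + q := by
  have h1 : nrm b = 1 := by rw [nrm, ← Real.sqrt_one, ← hb]; simp [dot, sq]
  have h2 : nrm c = 1 := by rw [nrm, ← Real.sqrt_one, ← hc]; simp [dot, sq]
  have e : dot a b - dot c d = dot (a - c) b + dot c (b - d) := by
    simp only [dot, Pi.sub_apply, ← Finset.sum_add_distrib, ← Finset.sum_sub_distrib]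
    exact Finset.sum_congr rfl fun i _ => by ring
  rw [e]
  refine (abs_add_le _ _).trans (add_le_add ?_ ?_)
  · exact (abs_dot_le_nrm _ _).trans (by rw [h1, mul_one]; exact hp)
  · exact (abs_dot_le_nrm _ _).trans (by rw [h2, one_mul]; exact hq)

lemma dot_self_dir {y : Fin N → ℝ} (h : nrm y ≠ 0) : dot (dir y) (dir y) = 1 := by
  have h2 : nrm y ^ 2 = ∑ i, y i ^ 2 := Real.sq_sqrt (Finset.sum_nonneg fun i _ => sq_nonneg _)
  simp only [dot, dir, ← sq, div_pow]
  rw [← Finset.sum_div, ← h2, div_self (pow_ne_zero 2 h)]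

/-- The direction of a good vector against the grid configuration. -/
lemma split_vec (hm : 0 < m) (hk : 0 < R * m) {τ : ℝ}
    (hτ : τ + ((R : ℝ) ^ 2 + 1) / (N + 1) ≤ 1 / 2) (hR8 : 8 * (R : ℝ) ^ 2 ≤ N + 1)
    {y : Fin N → ℝ} {t : ℝ} (hy : |(∑ i, y i ^ 2) - N| ≤ τ * N) (hy0 : nrm y ≠ 0)
    (ht : |t| < R) :
    ∃ θ a : ℝ, dir (Fin.snoc y t : Fin (N + 1) → ℝ) = Fin.snoc (fun i => θ * dir y i) a ∧
      0 ≤ θ ∧ θ ≤ 1 ∧ |a| ≤ 2 * R / √(N + 1 : ℝ) ∧
      |a - spin m (cellIdx hk m t).1 (cellIdx hk m t).2 / √(N + 1 : ℝ)| ≤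
        (2 * R * (τ + ((R : ℝ) ^ 2 + 1) / (N + 1)) + 1 / m) / √(N + 1 : ℝ) ∧
      |θ - √(1 - spin m (cellIdx hk m t).1 (cellIdx hk m t).2 ^ 2 / (N + 1 : ℝ))| ≤
        4 * R / √(N + 1 : ℝ) *
          |a - spin m (cellIdx hk m t).1 (cellIdx hk m t).2 / √(N + 1 : ℝ)| := by
  obtain ⟨he, heR⟩ := spin_cellIdx hm hk ht
  set e := spin m (cellIdx hk m t).1 (cellIdx hk m t).2
  set M : ℝ := (N : ℝ) + 1 with hM
  set τ' := τ + ((R : ℝ) ^ 2 + 1) / M with hτ'
  have hM0 : 0 < M := by positivity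
  have hS := Real.sqrt_pos.2 hM0
  set r := nrm (Fin.snoc y t : Fin (N + 1) → ℝ) with hr
  have hr2 : r ^ 2 = (∑ i, y i ^ 2) + t ^ 2 := by
    rw [hr, nrm, Real.sq_sqrt (Finset.sum_nonneg fun i _ => sq_nonneg _), Fin.sum_univ_castSucc]
    simp
  have hy2 : nrm y ^ 2 = ∑ i, y i ^ 2 := Real.sq_sqrt (Finset.sum_nonneg fun i _ => sq_nonneg _)
  have ht2 : t ^ 2 ≤ (R : ℝ) ^ 2 := by
    rw [← sq_abs]; exact pow_le_pow_left₀ (abs_nonneg t) ht.le 2
  have hrel : |r ^ 2 / M - 1| ≤ τ' := by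
    rw [div_sub_one hM0.ne', abs_div, abs_of_pos hM0, div_le_iff₀ hM0, hr2, hτ', add_mul,
      div_mul_cancel₀ _ hM0.ne', hM]
    have hτ0 : 0 ≤ τ := by
      rcases N.eq_zero_or_pos with rfl | hN
      · exact absurd (show nrm y = 0 by simp [nrm]) hy0
      · exact nonneg_of_mul_nonneg_left ((abs_nonneg _).trans hy) (Nat.cast_pos.2 hN)
    rw [abs_le] at hy ⊢
    constructor <;> nlinarith [sq_nonneg t]
  have hr0 : 0 ≤ r := Real.sqrt_nonneg _
  have hrel1 : |r / √M - 1| ≤ τ' := by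
    refine le_trans ?_ hrel
    have e : r ^ 2 / M - 1 = (r / √M - 1) * (r / √M + 1) := by
      have := Real.sq_sqrt hM0.le
      field_simp
      linear_combination r ^ 2 * this
    rw [e, abs_mul]
    exact le_mul_of_one_le_right (abs_nonneg _) (by
      rw [abs_of_nonneg (by positivity)]; linarith [show 0 ≤ r / √M by positivity])
  have hrh : √M / 2 ≤ r := by
    have := (abs_le.1 hrel1).1
    have h : (1 : ℝ) / 2 ≤ r / √M := by linarith
    rw [le_div_iff₀ hS] at h; linarith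
  have hrp : 0 < r := by linarith
  have hinv : |1 / r - 1 / √M| ≤ 2 * τ' / √M := by
    rw [show 1 / r - 1 / √M = -(r / √M - 1) / r by field_simp; ring, abs_div, abs_neg,
      abs_of_pos hrp]
    refine (div_le_div₀ ((abs_nonneg _).trans hrel1) hrel1 (by positivity) hrh).trans_eq ?_
    field_simp
  refine ⟨nrm y / r, t / r, ?_, div_nonneg (Real.sqrt_nonneg _) hrp.le, ?_, ?_, ?_, ?_⟩
  · funext i
    induction i using Fin.lastCases with
    | last => simp [dir, hr]
    | cast i => simp only [dir, Fin.snoc_castSucc, ← hr]; field_simp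
  · rw [div_le_one hrp]
    exact Real.sqrt_le_sqrt (by
      rw [Fin.sum_univ_castSucc]; simp; exact sq_nonneg t)
  · rw [abs_div, abs_of_pos hrp]
    refine (div_le_div₀ R.cast_nonneg ht.le (by positivity) hrh).trans_eq ?_
    field_simp
  · rw [show t / r - e / √M = t * (1 / r - 1 / √M) + (t - e) / √M by ring]
    refine (abs_add_le _ _).trans ((add_le_add (b := |t| * (2 * τ' / √M)) (d := 1 / (m : ℝ) / √M)
      ?_ ?_).trans ?_)
    · rw [abs_mul]; exact mul_le_mul_of_nonneg_left hinv (abs_nonneg _)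
    · rw [abs_div, abs_of_pos hS, abs_sub_comm]; exact div_le_div_of_nonneg_right he hS.le
    · rw [add_div]
      refine add_le_add ?_ le_rfl
      rw [mul_div_assoc, mul_comm 2 (R : ℝ), mul_assoc, ← mul_div_assoc, ← mul_div_assoc]
      exact div_le_div_of_nonneg_right (mul_le_mul_of_nonneg_right ht.le
        (by linarith [(abs_nonneg _).trans hrel1])) hS.le
  · have hθ : nrm y / r = √(1 - (t / r) ^ 2) := by
      rw [← Real.sqrt_sq (show 0 ≤ nrm y / r from div_nonneg (Real.sqrt_nonneg _) hrp.le)]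
      congr 1
      show (nrm y / r) ^ 2 = 1 - (t / r) ^ 2
      rw [div_pow, div_pow, one_sub_div (pow_ne_zero 2 hrp.ne'), hr2, hy2]
      ring
    have hR' : |e / √M| ≤ 2 * R / √M := by
      rw [abs_div, abs_of_pos hS]
      exact div_le_div_of_nonneg_right (by linarith [R.cast_nonneg (α := ℝ)]) hS.le
    have ha : |t / r| ≤ 2 * R / √M := by
      rw [abs_div, abs_of_pos hrp]
      refine (div_le_div₀ R.cast_nonneg ht.le (by positivity) hrh).trans_eq ?_
      field_simp
    have hK : (2 * (R : ℝ) / √M) ^ 2 ≤ 1 / 2 := by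
      rw [div_pow, Real.sq_sqrt hM0.le, div_le_iff₀ hM0]; linarith
    have hsq : ∀ b : ℝ, |b| ≤ 2 * R / √M → b ^ 2 ≤ 1 / 2 := fun b hb =>
      (by rw [← sq_abs]; exact pow_le_pow_left₀ (abs_nonneg b) hb 2 : b ^ 2 ≤ _).trans hK
    rw [hθ, show e ^ 2 / M = (e / √M) ^ 2 by rw [div_pow, Real.sq_sqrt hM0.le]]
    set a := t / r
    set b := e / √M
    have hu := Real.sq_sqrt (show (0 : ℝ) ≤ 1 - a ^ 2 by linarith [hsq a ha])
    have hv := Real.sq_sqrt (show (0 : ℝ) ≤ 1 - b ^ 2 by linarith [hsq b hR'])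
    have h1 : (1 : ℝ) ≤ √(1 - a ^ 2) + √(1 - b ^ 2) := by
      nlinarith [hsq a ha, hsq b hR', Real.sqrt_nonneg (1 - a ^ 2), Real.sqrt_nonneg (1 - b ^ 2)]
    calc |√(1 - a ^ 2) - √(1 - b ^ 2)|
        ≤ |√(1 - a ^ 2) - √(1 - b ^ 2)| * (√(1 - a ^ 2) + √(1 - b ^ 2)) :=
          le_mul_of_one_le_right (abs_nonneg _) h1
      _ = |a + b| * |a - b| := by
          rw [← abs_of_nonneg (show 0 ≤ √(1 - a ^ 2) + √(1 - b ^ 2) by linarith), ← abs_mul,
            ← abs_mul]
          rw [show (√(1 - a ^ 2) - √(1 - b ^ 2)) * (√(1 - a ^ 2) + √(1 - b ^ 2)) =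
            -((a + b) * (a - b)) by linear_combination hu - hv, abs_neg]
      _ ≤ _ := by
          refine mul_le_mul_of_nonneg_right ((abs_add_le _ _).trans ?_) (abs_nonneg _)
          rw [show 4 * (R : ℝ) / √M = 2 * R / √M + 2 * R / √M by ring]
          exact add_le_add ha hR'

/-- The overlap error of the coupling. -/
def splitErr (N R m : ℕ) (τ : ℝ) : ℝ :=
  12 * R * (2 * R * (τ + ((R : ℝ) ^ 2 + 1) / (N + 1)) + 1 / m) / (N + 1) +
    2 * netTol N + 2 * netTol (N + 1)

lemma sum_push {α X : Type*} [MeasurableSpace α] [Fintype X] [MeasurableSpace X]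
    [MeasurableSingletonClass X] (ν : Measure α) [IsFiniteMeasure ν] {Q : α → X}
    (hQ : Measurable Q) (F : X → ℝ) :
    ∫ y, F (Q y) ∂ν = ∑ q, ν.real (Q ⁻¹' {q}) * F q := by
  rw [← integral_map hQ.aemeasurable .of_discrete, integral_fintype .of_finite]
  simp [map_measureReal_apply hQ (measurableSet_singleton _)]

lemma integral_radius_dir (hN : 0 < N) (G : Set ℝ) (hG : MeasurableSet G) (h0 : (0 : ℝ) ∉ G)
    {φ : (Fin N → ℝ) → ℝ} (hφ : Measurable φ) :
    ∫ y in nrm ⁻¹' G, φ (dir y) ∂gam (Fin N) =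
      (gam (Fin N)).real (nrm ⁻¹' G) * ∫ y, φ (dir y) ∂gam (Fin N) := by
  have : Nonempty (Fin N) := ⟨⟨0, hN⟩⟩
  have hm : MeasurableSet ((nrm : (Fin N → ℝ) → ℝ) ⁻¹' G) := measurable_nrm hG
  have hmeas : Measurable ((nrm ⁻¹' G).indicator fun y : Fin N → ℝ => φ (dir y)) :=
    (hφ.comp measurable_dir).indicator hm
  rw [← integral_indicator hm]
  conv_lhs => rw [← map_recombine_gaussian (ι := Fin N)]
  rw [integral_map measurable_recombine.aemeasurable hmeas.aestronglyMeasurable]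
  have hz : ∀ᵐ b ∂gam (Fin N), nrm b ≠ 0 := by
    have hs : ({0} : Set (Fin N → ℝ)) = Set.univ.pi fun _ => {0} := by
      ext y; simp [funext_iff]
    have h : gam (Fin N) {0} = 0 := by
      rw [hs, Measure.pi_pi]
      exact Finset.prod_eq_zero (Finset.mem_univ ⟨0, hN⟩)
        (admissible_gaussian.zero)
    rw [ae_iff]
    refine measure_mono_null (fun b hb => ?_) h
    simp only [Set.mem_ofPred_eq, not_not] at hb
    have h2 := (Real.sqrt_eq_zero (Finset.sum_nonneg fun i _ => sq_nonneg _)).1 hb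
    rw [Finset.sum_eq_zero_iff_of_nonneg fun i _ => sq_nonneg _] at h2
    funext i
    exact pow_eq_zero_iff two_ne_zero |>.1 (h2 i (Finset.mem_univ i))
  have he : (fun p : (Fin N → ℝ) × (Fin N → ℝ) =>
      (nrm ⁻¹' G).indicator (fun y => φ (dir y)) (recombine p)) =ᵐ[(gam (Fin N)).prod (gam (Fin N))]
      fun p => (nrm ⁻¹' G).indicator (fun _ => (1 : ℝ)) p.1 * φ (dir p.2) := by
    filter_upwards [Measure.quasiMeasurePreserving_snd.ae hz] with p hp
    have h1 : nrm (recombine p) = nrm p.1 := by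
      have := dot_self_dir hp
      have e : ∑ i, recombine p i ^ 2 = nrm p.1 ^ 2 := by
        calc ∑ i, recombine p i ^ 2 = nrm p.1 ^ 2 * dot (dir p.2) (dir p.2) := by
              rw [dot, Finset.mul_sum]; exact Finset.sum_congr rfl fun i _ => by rw [recombine]; ring
          _ = _ := by rw [this, mul_one]
      rw [nrm, e]; exact Real.sqrt_sq (Real.sqrt_nonneg _)
    by_cases hg : nrm p.1 ∈ G
    · have hne : nrm p.1 ≠ 0 := fun h => h0 (h ▸ hg)
      have h2 : dir (recombine p) = dir p.2 := by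
        funext i
        show recombine p i / nrm (recombine p) = _
        rw [h1, recombine, mul_div_assoc, ← mul_div_assoc, mul_div_cancel_left₀ _ hne]
      rw [Set.indicator_of_mem (show recombine p ∈ nrm ⁻¹' G by simpa [h1] using hg),
        Set.indicator_of_mem (show p.1 ∈ nrm ⁻¹' G from hg), h2, one_mul]
    · rw [Set.indicator_of_notMem (show recombine p ∉ nrm ⁻¹' G by simpa [h1] using hg),
        Set.indicator_of_notMem (show p.1 ∉ nrm ⁻¹' G from hg), zero_mul]
  rw [integral_congr_ae he, integral_prod_mul ((nrm ⁻¹' G).indicator fun _ => (1 : ℝ))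
    fun b => φ (dir b), ← Pi.one_def, integral_indicator_one hm]

lemma radius_prob (hN : 0 < N) {τ : ℝ} (hτ : 0 < τ) :
    1 - gaussC / (τ * √N) ≤ (gam (Fin N)).real {y | |(∑ i, y i ^ 2) - N| ≤ τ * N} := by
  have hNr : (0 : ℝ) < N := Nat.cast_pos.2 hN
  have hm : MeasurableSet {y : Fin N → ℝ | |(∑ i, y i ^ 2) - N| ≤ τ * N} :=
    measurableSet_le (by fun_prop) measurable_const
  have h1 := mul_meas_ge_le_integral_of_nonneg (μ := gam (Fin N))
    (f := fun y : Fin N → ℝ => |(∑ i, y i ^ 2) - (N : ℝ)|) (ae_of_all _ fun y => abs_nonneg _)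
    (admissible_gaussian.sq_integrable N) (τ * N)
  have h2 := h1.trans (admissible_gaussian.moment N)
  have h3 : (gam (Fin N)).real {y | |(∑ i, y i ^ 2) - N| ≤ τ * N}ᶜ ≤ gaussC / (τ * √N) := by
    refine (measureReal_mono (μ := gam (Fin N))
      (show _ ⊆ {y : Fin N → ℝ | τ * N ≤ |(∑ i, y i ^ 2) - N|} from
        fun y hy => (not_le.1 (show ¬|(∑ i, y i ^ 2) - (N : ℝ)| ≤ τ * N from hy)).le)).trans ?_
    rw [le_div_iff₀ (by positivity)]
    refine le_of_mul_le_mul_right ?_ (Real.sqrt_pos.2 hNr)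
    rw [mul_assoc, mul_assoc τ, Real.mul_self_sqrt hNr.le, mul_comm]
    exact h2
  rw [measureReal_compl hm, probReal_univ] at h3
  linarith

/-- The coupling. -/
theorem exists_split {P : ∀ N, Pts N} (hP : IsNets P) (hN : 0 < N) (hm : 0 < m) (hR : 0 < R)
    {τ : ℝ} (hτ0 : 0 < τ) (hτ : τ + ((R : ℝ) ^ 2 + 1) / (N + 1) ≤ 1 / 2)
    (hR8 : 8 * (R : ℝ) ^ 2 ≤ N + 1) :
    ∃ w : Conf (P (N + 1)) × Conf (P N) × Fin (R * m) × Bool → ℝ, (∀ q, 0 ≤ w q) ∧
      (∀ φ : (Fin (N + 1) → ℝ) → ℝ, Measurable φ → (∀ v, 0 ≤ φ v) →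
        (1 - netTol (N + 1)) * ∑ q, w q * φ (unitVec q.1) ≤
          (∑ σ : Conf (P (N + 1)), φ (unitVec σ)) / (P (N + 1)).K) ∧
      (∀ ψ : (Fin N → ℝ) → Fin (R * m) × Bool → ℝ, (∀ p, Measurable fun v => ψ v p) →
        (∀ v p, 0 ≤ ψ v p) →
        (1 - gaussC / (τ * √N)) *
            ((∑ σ : Conf (P N), ∑ p, cellW m p.1 * ψ (unitVec σ) p) / (P N).K) ≤
          (1 + netTol N) * ∑ q, w q * ψ (unitVec q.2.1) q.2.2) ∧
      ∀ q r, w q ≠ 0 → w r ≠ 0 →
        |dot (newV (unitVec q.2.1) (spin m q.2.2.1 q.2.2.2))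
            (newV (unitVec r.2.1) (spin m r.2.2.1 r.2.2.2)) -
          dot (unitVec q.1) (unitVec r.1)| ≤ splitErr N R m τ := by
  obtain ⟨prj, hprjm, hprja, hprji⟩ := hP N hN
  obtain ⟨prj', hprjm', hprja', hprji'⟩ := hP (N + 1) N.succ_pos
  have hk : 0 < R * m := Nat.mul_pos hR hm
  have hNr : (0 : ℝ) < N := Nat.cast_pos.2 hN
  have hNr' : (0 : ℝ) < ((N + 1 : ℕ) : ℝ) := Nat.cast_pos.2 N.succ_pos
  set G₀ : Set (Fin N → ℝ) := {y | |(∑ i, y i ^ 2) - N| ≤ τ * N} with hG₀
  set I : Set ℝ := {t | |t| < R} with hI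
  have hG₀m : MeasurableSet G₀ := measurableSet_le (by fun_prop) measurable_const
  have hIm : MeasurableSet I := measurableSet_lt continuous_abs.measurable measurable_const
  set ν := ((gam (Fin N)).prod (gaussianReal 0 1)).restrict (G₀ ×ˢ I) with hν
  set Q : (Fin N → ℝ) × ℝ → Conf (P (N + 1)) × Conf (P N) × Fin (R * m) × Bool := fun z =>
    (pick _ (prj' (sph (Fin.snoc z.1 z.2))), pick _ (prj (sph z.1)), cellIdx hk m z.2) with hQ
  have hsn := measurePreserving_snoc N
  have hQm : Measurable Q :=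
    (((measurable_pick _).comp hprjm').comp (measurable_sph.comp hsn.measurable)).prodMk
      ((((measurable_pick _).comp hprjm).comp (measurable_sph.comp measurable_fst)).prodMk
        ((measurable_cellIdx hk).comp measurable_snd))
  have h1 : ∀ᵐ z ∂gam (Fin N), nrm (prj (sph z) - dir z) ≤ netTol N ∧
      ∃ σ : Conf (P N), unitVec σ = prj (sph z) := by
    rw [sphereLaw_sph hN] at hprja
    filter_upwards [ae_of_ae_map measurable_sph.aemeasurable hprja] with z hz
    refine ⟨le_of_eq_of_le ?_ hz.1, let ⟨σ, hσ⟩ := hz.2; ⟨σ, hσ.symm⟩⟩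
    simp only [nrm, Pi.sub_apply, sph]
    congr 1
    exact Finset.sum_congr rfl fun i _ => by field_simp
  have h2 : ∀ᵐ z ∂gam (Fin (N + 1)), nrm (prj' (sph z) - dir z) ≤ netTol (N + 1) ∧
      ∃ σ : Conf (P (N + 1)), unitVec σ = prj' (sph z) := by
    rw [sphereLaw_sph (Nat.add_one_pos N)] at hprja'
    filter_upwards [ae_of_ae_map measurable_sph.aemeasurable hprja'] with z hz
    refine ⟨le_of_eq_of_le ?_ hz.1, let ⟨σ, hσ⟩ := hz.2; ⟨σ, hσ.symm⟩⟩
    simp only [nrm, Pi.sub_apply, sph]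
    congr 1
    exact Finset.sum_congr rfl fun i _ => by field_simp
  have hw : ∀ F : Conf (P (N + 1)) × Conf (P N) × Fin (R * m) × Bool → ℝ,
      ∑ q, ν.real (Q ⁻¹' {q}) * F q = ∫ z, F (Q z) ∂ν := fun F => (sum_push ν hQm F).symm
  refine ⟨fun q => ν.real (Q ⁻¹' {q}), fun q => measureReal_nonneg, fun φ hφ hφ0 => ?_,
    fun ψ hψ hψ0 => ?_, fun q r hq hr => ?_⟩
  · rw [hw fun q => φ (unitVec q.1)]
    refine le_trans ?_ (hprji' φ hφ hφ0).1
    set Φ : (Fin (N + 1) → ℝ) → ℝ := fun y => φ (unitVec (pick (P (N + 1)) (prj' (sph y))))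
    have hΦm : Measurable Φ := (measurable_of_countable fun σ : Conf (P (N + 1)) =>
      φ (unitVec σ)).comp (((measurable_pick _).comp hprjm').comp measurable_sph)
    have hΦi : Integrable Φ (gam (Fin (N + 1))) :=
      Integrable.of_bound hΦm.aestronglyMeasurable (∑ σ : Conf (P (N + 1)), φ (unitVec σ))
        (ae_of_all _ fun y => by
          rw [Real.norm_eq_abs, abs_of_nonneg (hφ0 _)]
          exact Finset.single_le_sum (f := fun σ : Conf (P (N + 1)) => φ (unitVec σ))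
            (fun σ _ => hφ0 _) (Finset.mem_univ _))
    have e : ∫ x, φ (prj' x) ∂sphereLaw (N + 1) = ∫ y, Φ y ∂gam (Fin (N + 1)) := by
      have hc : Measurable fun x => φ (prj' x) := hφ.comp hprjm'
      rw [sphereLaw_sph (Nat.add_one_pos N), integral_map measurable_sph.aemeasurable hc.aestronglyMeasurable]
      refine integral_congr_ae (h2.mono fun y hy => ?_)
      simp only [Φ, unitVec_pick hy.2]
    rw [e]
    refine mul_le_mul_of_nonneg_left ?_ (sub_nonneg.2 ?_)
    · rw [← hsn.map_eq, integral_map hsn.measurable.aemeasurable hΦm.aestronglyMeasurable]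
      exact setIntegral_le_integral (hsn.integrable_comp_of_integrable hΦi)
        (ae_of_all _ fun z => hφ0 _)
    · rw [netTol, div_le_one (by positivity)]
      exact one_le_pow₀ (by linarith)
  · rw [hw fun q => ψ (unitVec q.2.1) q.2.2]
    set ν₁ := (gam (Fin N)).restrict G₀
    set ν₂ := (gaussianReal 0 1).restrict I
    set Φ : (Fin N → ℝ) → Fin (R * m) × Bool → ℝ := fun y p =>
      ψ (unitVec (pick (P N) (prj (sph y)))) p with hΦ
    have hΦm : ∀ p, Measurable fun y => Φ y p := fun p =>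
      (measurable_of_countable fun σ : Conf (P N) => ψ (unitVec σ) p).comp
        (((measurable_pick _).comp hprjm).comp measurable_sph)
    have hΦb : ∀ p y, ‖Φ y p‖ ≤ ∑ σ : Conf (P N), ψ (unitVec σ) p := fun p y => by
      rw [Real.norm_eq_abs, abs_of_nonneg (hψ0 _ _)]
      exact Finset.single_le_sum (f := fun σ : Conf (P N) => ψ (unitVec σ) p)
        (fun σ _ => hψ0 _ _) (Finset.mem_univ _)
    have hint : ∀ p, Integrable (fun y => Φ y p) ν₁ := fun p =>
      Integrable.of_bound (hΦm p).aestronglyMeasurable _ (ae_of_all _ (hΦb p))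
    have e1 : ∫ z, ψ (unitVec (Q z).2.1) (Q z).2.2 ∂ν =
        ∑ p, ν₂.real (cellIdx hk m ⁻¹' {p}) * ∫ y, Φ y p ∂ν₁ := by
      have hi : Integrable (fun z : (Fin N → ℝ) × ℝ => Φ z.1 (cellIdx hk m z.2)) (ν₁.prod ν₂) := by
        refine Integrable.of_bound ?_ (∑ p, ∑ σ : Conf (P N), ψ (unitVec σ) p)
          (ae_of_all _ fun z => (hΦb _ z.1).trans (Finset.single_le_sum
            (f := fun p => ∑ σ : Conf (P N), ψ (unitVec σ) p)
            (fun p _ => Finset.sum_nonneg fun σ _ => hψ0 _ _) (Finset.mem_univ _)))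
        exact ((measurable_from_prod_countable_left (f := fun z : (Fin N → ℝ) × (Fin (R * m) × Bool) =>
          Φ z.1 z.2) hΦm).comp
          (measurable_fst.prodMk ((measurable_cellIdx hk).comp measurable_snd))).aestronglyMeasurable
      calc ∫ z, ψ (unitVec (Q z).2.1) (Q z).2.2 ∂ν
          = ∫ z, Φ z.1 (cellIdx hk m z.2) ∂ν₁.prod ν₂ := by rw [hν, ← Measure.prod_restrict]
        _ = ∫ y, ∑ p, ν₂.real (cellIdx hk m ⁻¹' {p}) * Φ y p ∂ν₁ := by
            rw [integral_prod _ hi]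
            exact integral_congr_ae (ae_of_all _ fun y =>
              sum_push ν₂ (measurable_cellIdx hk) (Φ y))
        _ = _ := by
            rw [integral_finsetSum _ fun p _ => (hint p).const_mul _]
            simp only [integral_const_mul]
    have e2 : ∀ p, (1 - gaussC / (τ * √N)) * ((∑ σ : Conf (P N), ψ (unitVec σ) p) / (P N).K) ≤
        (1 + netTol N) * ∫ y, Φ y p ∂ν₁ := by
      intro p
      have e : ∫ x, ψ (prj x) p ∂sphereLaw N = ∫ y, Φ y p ∂gam (Fin N) := by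
        have hc : Measurable fun x => ψ (prj x) p := (hψ p).comp hprjm
        rw [sphereLaw_sph hN, integral_map measurable_sph.aemeasurable hc.aestronglyMeasurable]
        refine integral_congr_ae (h1.mono fun y hy => ?_)
        simp only [hΦ, unitVec_pick hy.2]
      set G : Set ℝ := {r | |r ^ 2 - N| ≤ τ * N}
      have hG : G₀ = nrm ⁻¹' G := by
        ext y
        simp only [hG₀, G, Set.mem_preimage, Set.mem_ofPred_eq, nrm,
          Real.sq_sqrt (Finset.sum_nonneg fun i (_ : i ∈ Finset.univ) => sq_nonneg (y i))]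
      have hG0 : (0 : ℝ) ∉ G := by
        simp only [G, Set.mem_ofPred_eq, not_le]
        rw [zero_pow two_ne_zero, zero_sub, abs_neg, abs_of_pos hNr]
        exact mul_lt_of_lt_one_left hNr
          (by linarith [show (0 : ℝ) ≤ ((R : ℝ) ^ 2 + 1) / (N + 1) by positivity])
      have er : ∫ y, Φ y p ∂ν₁ = (gam (Fin N)).real G₀ * ∫ y, Φ y p ∂gam (Fin N) := by
        show ∫ y in G₀, Φ y p ∂gam (Fin N) = _
        rw [hG]
        exact integral_radius_dir hN G (measurableSet_le (by fun_prop) measurable_const) hG0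
          (φ := fun d => ψ (unitVec (pick (P N) (prj fun i => √N * d i))) p)
          ((measurable_of_countable fun σ : Conf (P N) => ψ (unitVec σ) p).comp
            (((measurable_pick _).comp hprjm).comp (by fun_prop)))
      rw [er, mul_left_comm]
      have hav := (hprji (fun v => ψ v p) (hψ p) fun v => hψ0 v p).2
      rw [e] at hav
      calc _ ≤ (gam (Fin N)).real G₀ * ((∑ σ : Conf (P N), ψ (unitVec σ) p) / (P N).K) :=
            mul_le_mul_of_nonneg_right (radius_prob hN hτ0)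
              (div_nonneg (Finset.sum_nonneg fun σ _ => hψ0 _ _) (Nat.cast_nonneg _))
        _ ≤ _ := mul_le_mul_of_nonneg_left hav measureReal_nonneg
    rw [e1, Finset.mul_sum, Finset.sum_comm, Finset.sum_div, Finset.mul_sum]
    refine Finset.sum_le_sum fun p _ => ?_
    rw [← Finset.mul_sum, mul_div_assoc, mul_left_comm, mul_left_comm (1 + netTol N)]
    have h0 : 0 ≤ (1 + netTol N) * ∫ y, Φ y p ∂ν₁ :=
      mul_nonneg (add_nonneg zero_le_one (by unfold netTol; positivity))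
        (integral_nonneg fun y => hψ0 _ _)
    exact (mul_le_mul_of_nonneg_left (e2 p) (by unfold cellW; exact measureReal_nonneg)).trans
      (mul_le_mul_of_nonneg_right (cell_mass hm hk p) h0)
  · have hae : ∀ᵐ z ∂ν, (nrm (prj (sph z.1) - dir z.1) ≤ netTol N ∧
        ∃ σ : Conf (P N), unitVec σ = prj (sph z.1)) ∧
        (nrm (prj' (sph (Fin.snoc z.1 z.2)) - dir (Fin.snoc z.1 z.2 : Fin (N + 1) → ℝ)) ≤
            netTol (N + 1) ∧
          ∃ σ : Conf (P (N + 1)), unitVec σ = prj' (sph (Fin.snoc z.1 z.2))) ∧ z ∈ G₀ ×ˢ I :=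
      Filter.Eventually.and (ae_restrict_of_ae (Measure.quasiMeasurePreserving_fst.ae h1))
        (Filter.Eventually.and (ae_restrict_of_ae (hsn.quasiMeasurePreserving.ae h2))
          (ae_restrict_mem (hG₀m.prod hIm)))
    have wit : ∀ q, ν.real (Q ⁻¹' {q}) ≠ 0 → ∃ d : Fin N → ℝ, ∃ θ a : ℝ,
        dot d d = 1 ∧ nrm (unitVec q.2.1 - d) ≤ netTol N ∧
        nrm (unitVec q.1 - (Fin.snoc (fun i => θ * d i) a : Fin (N + 1) → ℝ)) ≤ netTol (N + 1) ∧
        dot (Fin.snoc (fun i => θ * d i) a : Fin (N + 1) → ℝ) (Fin.snoc (fun i => θ * d i) a) = 1 ∧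
        0 ≤ θ ∧ θ ≤ 1 ∧ |a| ≤ 2 * R / √(N + 1 : ℝ) ∧
        |spin m q.2.2.1 q.2.2.2| ≤ R ∧
        |a - spin m q.2.2.1 q.2.2.2 / √(N + 1 : ℝ)| ≤
          (2 * R * (τ + ((R : ℝ) ^ 2 + 1) / (N + 1)) + 1 / m) / √(N + 1 : ℝ) ∧
        |θ - √(1 - spin m q.2.2.1 q.2.2.2 ^ 2 / (N + 1 : ℝ))| ≤
          4 * R / √(N + 1 : ℝ) * |a - spin m q.2.2.1 q.2.2.2 / √(N + 1 : ℝ)| := by
      intro q hq
      obtain ⟨z, hzq, ⟨⟨hd1, hs1⟩, ⟨hd2, hs2⟩, hzG, hzI⟩⟩ :=
        Measure.exists_mem_of_measure_ne_zero_of_ae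
          (measureReal_ne_zero_iff (measure_ne_top _ _) |>.1 hq) (ae_restrict_of_ae hae)
      have hzI : |z.2| < R := hzI
      have hzG : |(∑ i, z.1 i ^ 2) - N| ≤ τ * N := hzG
      have hy : nrm z.1 ≠ 0 := by
        intro h
        have h2 := (Real.sqrt_eq_zero (Finset.sum_nonneg fun i _ => sq_nonneg _)).1 h
        rw [h2, zero_sub, abs_neg, abs_of_pos hNr] at hzG
        nlinarith [show (0 : ℝ) ≤ ((R : ℝ) ^ 2 + 1) / (N + 1) by positivity]
      obtain ⟨θ, a, he, hθ0, hθ1, ha, hae', hθe⟩ := split_vec hm hk hτ hR8 hzG hy hzI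
      have hy' : nrm (Fin.snoc z.1 z.2 : Fin (N + 1) → ℝ) ≠ 0 := by
        intro h
        have h2 := (Real.sqrt_eq_zero (Finset.sum_nonneg fun i _ => sq_nonneg _)).1 h
        rw [Fin.sum_univ_castSucc] at h2
        simp only [Fin.snoc_castSucc, Fin.snoc_last] at h2
        refine hy (Real.sqrt_eq_zero'.2 ?_)
        linarith [sq_nonneg z.2]
      have hq' : Q z = q := hzq
      rw [← hq']
      refine ⟨dir z.1, θ, a, dot_self_dir hy, ?_, ?_, ?_, hθ0, hθ1, ha,
        (spin_cellIdx hm hk hzI).2, hae', hθe⟩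
      · rw [hQ, unitVec_pick hs1]; exact hd1
      · rw [hQ, unitVec_pick hs2, ← he]; exact hd2
      · rw [← he]; exact dot_self_dir hy'
    obtain ⟨d, θ, a, hd, hdu, hdu', hdd, hθ0, hθ1, ha, heR, hae1, hθe⟩ := wit q hq
    obtain ⟨d', θ', a', hd', hdu2, hdu2', hdd', hθ0', hθ1', ha', heR', hae1', hθe'⟩ := wit r hr
    set e := spin m q.2.2.1 q.2.2.2
    set e' := spin m r.2.2.1 r.2.2.2
    set S := √(N + 1 : ℝ) with hS
    set c := √(1 - e ^ 2 / (N + 1 : ℝ)) with hc
    set c' := √(1 - e' ^ 2 / (N + 1 : ℝ)) with hc'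
    have hSp : 0 < S := Real.sqrt_pos.2 (by positivity)
    have hu : dot (unitVec r.1) (unitVec r.1) = 1 := dot_self_unit N.succ_pos _
    have hv : dot (unitVec r.2.1) (unitVec r.2.1) = 1 := dot_self_unit hN _
    have A1 := dot_close (a := unitVec q.1) (b := unitVec r.1)
      (c := (Fin.snoc (fun i => θ * d i) a : Fin (N + 1) → ℝ))
      (d := (Fin.snoc (fun i => θ' * d' i) a' : Fin (N + 1) → ℝ)) hu hdd hdu' hdu2'
    have A2 := dot_close (a := unitVec q.2.1) (b := unitVec r.2.1) (c := d) (d := d') hv hd hdu hdu2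
    rw [dot_snoc_snoc, dot_mul_mul] at A1
    rw [dot_newV, ← hc, ← hc']
    set κ := (2 * (R : ℝ) * (τ + ((R : ℝ) ^ 2 + 1) / (N + 1)) + 1 / m) / S with hκ
    have hc01 : ∀ e : ℝ, 0 ≤ √(1 - e ^ 2 / (N + 1 : ℝ)) ∧ √(1 - e ^ 2 / (N + 1 : ℝ)) ≤ 1 := fun e =>
      ⟨Real.sqrt_nonneg _,
        Real.sqrt_le_one.2 (by linarith [show (0 : ℝ) ≤ e ^ 2 / (N + 1 : ℝ) by positivity])⟩
    have hD := abs_dot_le_one hd hd'
    have hD' := abs_dot_le_one (dot_self_unit hN q.2.1) hv
    have hθθ : |c * c' * dot (unitVec q.2.1) (unitVec r.2.1) - θ * θ' * dot d d'| ≤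
        4 * R / S * κ + 4 * R / S * κ + (netTol N + netTol N) := by
      rw [show c * c' * dot (unitVec q.2.1) (unitVec r.2.1) - θ * θ' * dot d d' =
        (c - θ) * c' * dot (unitVec q.2.1) (unitVec r.2.1) +
          θ * (c' - θ') * dot (unitVec q.2.1) (unitVec r.2.1) +
          θ * θ' * (dot (unitVec q.2.1) (unitVec r.2.1) - dot d d') by ring]
      refine (abs_add_le _ _).trans (add_le_add ((abs_add_le _ _).trans (add_le_add ?_ ?_)) ?_)
      · rw [abs_mul, abs_mul, abs_of_nonneg (hc01 e').1, abs_sub_comm]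
        exact ((mul_le_of_le_one_right (by positivity) hD').trans
          (mul_le_of_le_one_right (abs_nonneg _) (hc01 e').2)).trans
          (hθe.trans (mul_le_mul_of_nonneg_left hae1 (by positivity)))
      · rw [abs_mul, abs_mul, abs_of_nonneg hθ0, abs_sub_comm c']
        exact ((mul_le_of_le_one_right (by positivity) hD').trans
          (mul_le_of_le_one_left (abs_nonneg _) hθ1)).trans
          (hθe'.trans (mul_le_mul_of_nonneg_left hae1' (by positivity)))
      · rw [abs_mul, abs_mul, abs_of_nonneg hθ0, abs_of_nonneg hθ0']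
        exact (mul_le_of_le_one_left (abs_nonneg _)
          (mul_le_one₀ hθ1 hθ0' hθ1')).trans A2
    have haa : |e * e' / (N + 1 : ℝ) - a * a'| ≤ κ * (2 * R / S) + 2 * R / S * κ := by
      rw [show e * e' / (N + 1 : ℝ) = e / S * (e' / S) by
        rw [div_mul_div_comm, hS, Real.mul_self_sqrt (by positivity)]]
      rw [show e / S * (e' / S) - a * a' = (e / S - a) * (e' / S) + a * (e' / S - a') by ring]
      refine (abs_add_le _ _).trans (add_le_add ?_ ?_)
      · rw [abs_mul, abs_sub_comm]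
        refine mul_le_mul hae1 ?_ (abs_nonneg _) ((abs_nonneg _).trans hae1)
        rw [abs_div, abs_of_pos hSp]
        exact div_le_div_of_nonneg_right (by linarith [R.cast_nonneg (α := ℝ)]) hSp.le
      · rw [abs_mul, abs_sub_comm (e' / S)]
        exact mul_le_mul ha hae1' (abs_nonneg _) (by positivity)
    have e2 : splitErr N R m τ = 4 * R / S * κ + 4 * R / S * κ + (netTol N + netTol N) +
        (κ * (2 * R / S) + 2 * R / S * κ) + (netTol (N + 1) + netTol (N + 1)) := by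
      have hS2 : S * S = N + 1 := Real.mul_self_sqrt (by positivity)
      rw [splitErr, hκ, ← hS2]
      field_simp
      ring
    rw [abs_le] at A1 hθθ haa ⊢
    constructor <;> linarith

end Vale.Agent.P157.Parisi.Sphere.Cavity
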