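import Vale.Agent.P157.Parisi.Cavity.Expand
import Vale.Agent.P157.Parisi.Sphere.Cavity.Finite
import Vale.Agent.P157.Parisi.Sphere.Cavity.Split

/-!
The new coordinate, pointwise: second order expansion of the patterns for a spin on a bounded
grid and the tilted Jensen bound.
-/

noncomputable section

open MeasureTheory ProbabilityTheory
open scoped BigOperators

namespace Vale.Agent.P157.Parisi.Sphere.Cavity

open Vale.Agent.P168.Limit (logZ gw gav)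
open Vale.Agent.P157.Parisi.Cavity (Base bCav snocPat taylor_two coef_bounds qTerm gav_exp_lower
  logZ_sub_eq)

variable {N L n R m : ℕ} {P : Pts N} {f : ℝ → ℝ} {A s T : ℝ} {x : Fin L → ℝ}

/-- The loss of length of the old coordinates. -/
lemma kappa_bounds {a κ : ℝ} (ha1 : a ^ 2 ≤ 1) (hκ : κ = 1 - Real.sqrt (1 - a ^ 2)) :
    0 ≤ κ ∧ κ ≤ a ^ 2 ∧ a ^ 2 ≤ 2 * κ ∧ 2 * κ ≤ a ^ 2 + a ^ 4 := by
  set θ := Real.sqrt (1 - a ^ 2) with hθ
  have hθ2 : θ ^ 2 = 1 - a ^ 2 := Real.sq_sqrt (by linarith)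
  have hθ0 : 0 ≤ θ := Real.sqrt_nonneg _
  have hθ1 : θ ≤ 1 := Real.sqrt_le_one.2 (by linarith [sq_nonneg a])
  have hκ0 : 0 ≤ κ := by rw [hκ]; linarith
  have hκe : κ * (1 + θ) = a ^ 2 := by rw [hκ]; linear_combination -hθ2
  have hκa : κ ≤ a ^ 2 := hκe ▸ le_mul_of_one_le_right hκ0 (by linarith)
  have hθl : 1 - a ^ 2 ≤ θ := by rw [← hθ2, sq]; exact mul_le_of_le_one_left hθ0 hθ1
  refine ⟨hκ0, hκa, ?_, ?_⟩
  · rw [← hκe, mul_comm 2]; exact mul_le_mul_of_nonneg_left (by linarith) hκ0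
  · nlinarith only [hκe, mul_le_mul_of_nonneg_left hθl hκ0,
      mul_le_mul_of_nonneg_right hκa (sq_nonneg a)]

/-- The sizes of the coefficients of the expansion. -/
lemma grid_coef {e a r δ κ R : ℝ} (hR : 1 ≤ R) (he : |e| ≤ R) (ha : a = e * δ) (ha1 : a ^ 2 ≤ 1)
    (hκ : κ = 1 - Real.sqrt (1 - a ^ 2)) (hδ0 : 0 ≤ δ) (hδ : δ ≤ r) (hδ3 : r - δ ≤ r ^ 3)
    (hδ23 : r ^ 2 - δ ^ 2 ≤ r ^ 3) (hr1 : r ≤ 1) :
    |a - e * r| ≤ R ^ 6 * r ^ 3 ∧ |e ^ 2 * r ^ 2 / 2 - κ| ≤ 2 * (R ^ 6 * r ^ 3) ∧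
      |a ^ 2 - e ^ 2 * r ^ 2| ≤ R ^ 6 * r ^ 3 ∧ κ ^ 2 ≤ R ^ 6 * r ^ 3 ∧
      2 * κ * |a| ≤ 2 * (R ^ 6 * r ^ 3) ∧ κ ≤ R ^ 2 * r ∧ |a| ≤ R ^ 2 * r ∧ 0 ≤ κ := by
  obtain ⟨hκ0, hκa, hκl, hκu⟩ := kappa_bounds ha1 hκ
  have hr0 : 0 ≤ r := hδ0.trans hδ
  have hR0 : 0 ≤ R := by linarith
  have hRp : ∀ k ≤ 6, R ^ k ≤ R ^ 6 := fun k hk => pow_le_pow_right₀ hR hk
  have he2 : e ^ 2 ≤ R ^ 2 := by rw [← sq_abs]; exact pow_le_pow_left₀ (abs_nonneg e) he 2
  have haR : |a| ≤ R * r := by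
    rw [ha, abs_mul, abs_of_nonneg hδ0]; exact mul_le_mul he hδ hδ0 hR0
  have ha2 : a ^ 2 ≤ R ^ 2 * r ^ 2 := by
    rw [← sq_abs, ← mul_pow]; exact pow_le_pow_left₀ (abs_nonneg a) haR 2
  have hr43 : r ^ 4 ≤ r ^ 3 := pow_le_pow_of_le_one hr0 hr1 (by norm_num)
  have hsd : 0 ≤ r ^ 2 - δ ^ 2 := sub_nonneg.2 (pow_le_pow_left₀ hδ0 hδ 2)
  have hsq : e ^ 2 * r ^ 2 - a ^ 2 = e ^ 2 * (r ^ 2 - δ ^ 2) := by rw [ha]; ring
  have h4 : a ^ 4 ≤ R ^ 6 * r ^ 3 := by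
    calc a ^ 4 = (a ^ 2) ^ 2 := by ring
      _ ≤ (R ^ 2 * r ^ 2) ^ 2 := pow_le_pow_left₀ (sq_nonneg a) ha2 2
      _ = R ^ 4 * r ^ 4 := by ring
      _ ≤ _ := mul_le_mul (hRp 4 (by norm_num)) hr43 (by positivity) (by positivity)
  have h5 : e ^ 2 * (r ^ 2 - δ ^ 2) ≤ R ^ 6 * r ^ 3 :=
    mul_le_mul (he2.trans (hRp 2 (by norm_num))) hδ23 hsd (by positivity)
  have h0 := mul_nonneg (sq_nonneg e) hsd
  refine ⟨?_, ?_, ?_, ?_, ?_, ?_, ?_, hκ0⟩
  · rw [show a - e * r = -(e * (r - δ)) by rw [ha]; ring, abs_neg, abs_mul,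
      abs_of_nonneg (sub_nonneg.2 hδ)]
    exact mul_le_mul (he.trans ((pow_one R).symm.le.trans (hRp 1 (by norm_num)))) hδ3
      (sub_nonneg.2 hδ) (by positivity)
  · rw [abs_le]
    constructor <;> linarith only [hκl, hκu, hsq, h4, h5, h0, show 0 ≤ a ^ 4 by positivity]
  · rw [abs_sub_comm, hsq, abs_of_nonneg h0]; exact h5
  · exact (pow_le_pow_left₀ hκ0 hκa 2).trans ((le_of_eq (by ring : (a ^ 2) ^ 2 = a ^ 4)).trans h4)
  · calc 2 * κ * |a| ≤ 2 * (R ^ 2 * r ^ 2) * (R * r) :=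
        mul_le_mul (mul_le_mul_of_nonneg_left (hκa.trans ha2) zero_le_two) haR (abs_nonneg _)
          (by positivity)
      _ = 2 * (R ^ 3 * r ^ 3) := by ring
      _ ≤ _ := mul_le_mul_of_nonneg_left
          (mul_le_mul_of_nonneg_right (hRp 3 (by norm_num)) (by positivity)) zero_le_two
  · exact (hκa.trans ha2).trans (mul_le_mul_of_nonneg_left (sq r ▸ mul_le_of_le_one_left hr0 hr1)
      (sq_nonneg R))
  · exact haR.trans (mul_le_mul_of_nonneg_right (sq R ▸ le_mul_of_one_le_left hR0 hR) hr0)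

/-- The expansion with abstract coefficients. -/
lemma grid_bound {A p q cl S z e a r δ κ U R : ℝ} (hA : 0 ≤ A) (hp : |p| ≤ A) (hq : |q| ≤ A)
    (hR : 1 ≤ R) (he : |e| ≤ R) (ha : a = e * δ) (ha1 : a ^ 2 ≤ 1)
    (hκ : κ = 1 - Real.sqrt (1 - a ^ 2)) (hδ0 : 0 ≤ δ) (hδ : δ ≤ r) (hδ3 : r - δ ≤ r ^ 3)
    (hδ23 : r ^ 2 - δ ^ 2 ≤ r ^ 3) (hr1 : r ≤ 1) (hU1 : 1 ≤ U) (hzS : |z| + |S| ≤ U) :
    e * (z * p * r) + e ^ 2 * ((q - cl * p) * (r ^ 2 / 2)) +
        e ^ 2 * (q * (z ^ 2 - 1) * (δ ^ 2 / 2)) -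
        2 * R ^ 6 * (5 * A * U ^ 3 * r ^ 3 + A * |S - cl| * (r ^ 2 / 2)) ≤
      p * (-κ * S + a * z) + q * (-κ * S + a * z) ^ 2 / 2 - A * |-κ * S + a * z| ^ 3 := by
  obtain ⟨c1, c2, c3, c4, c5, c6, c7, hκ0⟩ := grid_coef hR he ha ha1 hκ hδ0 hδ hδ3 hδ23 hr1
  clear hκ
  have hr0 : 0 ≤ r := hδ0.trans hδ
  have hzU : |z| ≤ U := by linarith only [hzS, abs_nonneg S]
  have hSU : |S| ≤ U := by linarith only [hzS, abs_nonneg z]
  have hU3 : U ≤ U ^ 3 := le_self_pow₀ hU1 three_ne_zero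
  have hU23 : U ^ 2 ≤ U ^ 3 := pow_le_pow_right₀ hU1 (by norm_num)
  set V := R ^ 6 * r ^ 3 with hV
  have hV0 : 0 ≤ V := (abs_nonneg _).trans c1
  set W := U ^ 3 * V with hW
  have a1 : |p * (z * (a - e * r))| ≤ A * W := by
    rw [abs_mul, abs_mul]
    exact mul_le_mul hp (mul_le_mul (hzU.trans hU3) c1 (abs_nonneg _) (by positivity))
      (by positivity) hA
  have a2 : |p * ((cl - S) * (e ^ 2 * r ^ 2 / 2))| ≤ R ^ 6 * (A * |S - cl| * (r ^ 2 / 2)) := by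
    rw [abs_mul, abs_mul, abs_sub_comm, abs_of_nonneg (by positivity : 0 ≤ e ^ 2 * r ^ 2 / 2)]
    have he2 : e ^ 2 ≤ R ^ 6 := ((sq_abs e).symm.trans_le
      (pow_le_pow_left₀ (abs_nonneg e) he 2)).trans (pow_le_pow_right₀ hR (by norm_num))
    calc |p| * (|S - cl| * (e ^ 2 * r ^ 2 / 2)) = e ^ 2 * (|p| * |S - cl| * (r ^ 2 / 2)) := by ring
      _ ≤ _ := mul_le_mul he2 (by gcongr) (by positivity) (by positivity)
  have a3 : |p * ((e ^ 2 * r ^ 2 / 2 - κ) * S)| ≤ A * (2 * W) := by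
    rw [abs_mul, abs_mul]
    refine mul_le_mul hp ((mul_le_mul c2 (hSU.trans hU3) (abs_nonneg _) (by positivity)).trans_eq
      ?_) (by positivity) hA
    rw [hW]; ring
  have b1 : |a ^ 2 - e ^ 2 * r ^ 2| ≤ W := c3.trans (le_mul_of_one_le_left hV0 (one_le_pow₀ hU1))
  have b2 : |κ ^ 2 * S ^ 2| ≤ W := by
    rw [abs_of_nonneg (by positivity), hW, mul_comm (U ^ 3), ← sq_abs S]
    exact mul_le_mul c4 ((pow_le_pow_left₀ (abs_nonneg _) hSU 2).trans hU23) (by positivity) hV0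
  have b3 : |2 * κ * a * (z * S)| ≤ 2 * W := by
    rw [abs_mul, abs_mul, abs_mul, abs_two, abs_of_nonneg hκ0, abs_mul]
    refine (mul_le_mul c5 ((mul_le_mul hzU hSU (abs_nonneg _) (by positivity)).trans
      ((sq U).symm.le.trans hU23)) (by positivity) (by positivity)).trans_eq ?_
    rw [hW]; ring
  have a4 : |q / 2 * ((a ^ 2 - e ^ 2 * r ^ 2) + κ ^ 2 * S ^ 2 - 2 * κ * a * (z * S))| ≤
      A / 2 * (4 * W) := by
    rw [abs_mul, abs_div, abs_two]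
    refine mul_le_mul (by linarith only [hq]) ((abs_sub _ _).trans ?_) (abs_nonneg _)
      (by linarith only [hA])
    linarith only [abs_add_le (a ^ 2 - e ^ 2 * r ^ 2) (κ ^ 2 * S ^ 2), b1, b2, b3]
  have a5 : A * |-κ * S + a * z| ^ 3 ≤ A * W := by
    refine mul_le_mul_of_nonneg_left ?_ hA
    have h : |-κ * S + a * z| ≤ R ^ 2 * r * U := by
      refine (abs_add_le _ _).trans ?_
      rw [abs_mul, abs_neg, abs_of_nonneg hκ0, abs_mul]
      linarith only [mul_le_mul_of_nonneg_right c6 (abs_nonneg S),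
        mul_le_mul_of_nonneg_right c7 (abs_nonneg z),
        mul_le_mul_of_nonneg_left hzS (show 0 ≤ R ^ 2 * r by positivity)]
    refine (pow_le_pow_left₀ (abs_nonneg _) h 3).trans_eq ?_
    rw [hW, hV]; ring
  have e1 : p * (-κ * S + a * z) + q * (-κ * S + a * z) ^ 2 / 2 =
      e * (z * p * r) + e ^ 2 * ((q - cl * p) * (r ^ 2 / 2)) +
        e ^ 2 * (q * (z ^ 2 - 1) * (δ ^ 2 / 2)) +
        (p * (z * (a - e * r)) + p * ((cl - S) * (e ^ 2 * r ^ 2 / 2)) +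
          p * ((e ^ 2 * r ^ 2 / 2 - κ) * S) +
          q / 2 * ((a ^ 2 - e ^ 2 * r ^ 2) + κ ^ 2 * S ^ 2 - 2 * κ * a * (z * S))) := by
    rw [ha]; ring
  have h0 : 0 ≤ A * W := by positivity
  have h1 : 0 ≤ R ^ 6 * (A * |S - cl| * (r ^ 2 / 2)) := by positivity
  rw [mul_add, show 2 * R ^ 6 * (5 * A * U ^ 3 * r ^ 3) = 10 * (A * W) by rw [hW, hV]; ring, e1]
  linarith only [(abs_le.1 a1).1, (abs_le.1 a2).1, (abs_le.1 a3).1, (abs_le.1 a4).1, a5, h0, h1]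

/-- The expansion of one pattern. -/
lemma spin_term (hN : 0 < N) (hf : Smooth f A) (hR : 0 < R) (hRN : (R : ℝ) ^ 2 ≤ N + 1) {e : ℝ}
    (he : |e| ≤ R) (S z : ℝ) :
    e * (z * deriv f S / Real.sqrt N) +
          e ^ 2 * ((deriv (deriv f) S - clampT T S * deriv f S) / (2 * N)) +
        e ^ 2 * (deriv (deriv f) S * (z ^ 2 - 1) / (2 * (N + 1))) -
          2 * (R : ℝ) ^ 6 * qTerm A T N S z ≤
      f (Real.sqrt (1 - e ^ 2 / (N + 1 : ℝ)) * S + e / Real.sqrt (N + 1 : ℝ) * z) - f S := by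
  obtain ⟨-, -, -, hδ0, hδ, hδ3, hδ23, hr1, -, hr2, hδ2⟩ := coef_bounds hN rfl rfl rfl
  have hA := (abs_nonneg _).trans (hf.b0 0)
  have he2 : e ^ 2 ≤ (R : ℝ) ^ 2 := by
    rw [← sq_abs]; exact pow_le_pow_left₀ (abs_nonneg e) he 2
  have hM : (0 : ℝ) < N + 1 := by positivity
  set a : ℝ := e * (1 / Real.sqrt (N + 1 : ℝ)) with ha
  have ha2 : a ^ 2 = e ^ 2 / (N + 1 : ℝ) := by rw [ha, mul_pow, hδ2]; ring
  have hb := grid_bound (A := A) (p := deriv f S) (q := deriv (deriv f) S) (cl := clampT T S)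
    (S := S) (z := z) (U := 1 + |z| + |S|) (R := R) hA (hf.b1 S) (hf.b2 S)
    (Nat.one_le_cast.2 hR) he ha (by rw [ha2, div_le_one hM]; linarith) rfl hδ0 hδ hδ3 hδ23 hr1
    (by linarith [abs_nonneg z, abs_nonneg S]) (by linarith)
  have ht := taylor_two hf S (-(1 - Real.sqrt (1 - a ^ 2)) * S + a * z)
  rw [hr2, hδ2] at hb
  rw [show Real.sqrt (1 - e ^ 2 / (N + 1 : ℝ)) * S + e / Real.sqrt (N + 1 : ℝ) * z =
    S + (-(1 - Real.sqrt (1 - a ^ 2)) * S + a * z) by rw [ha2, ha]; ring]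
  have e1 : ∀ a : ℝ, a * (1 / (N : ℝ) / 2) = a / (2 * N) := fun a => by ring
  have e2 : ∀ a : ℝ, a * (1 / (N + 1 : ℝ) / 2) = a / (2 * (N + 1)) := fun a => by
    rw [div_div, mul_one_div, mul_comm (2 : ℝ)]
  rw [e1, e1, e2,
    show z * deriv f S * (1 / Real.sqrt N) = z * deriv f S / Real.sqrt N by ring] at hb
  unfold qTerm
  linarith

/-- A bound on the remainder for all spins. -/
def remA (f : ℝ → ℝ) (A T : ℝ) (N R : ℕ) (S z : Fin n → ℝ) : ℝ :=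
  (R : ℝ) ^ 2 * |∑ a, deriv (deriv f) (S a) * (z a ^ 2 - 1)| / (2 * (N + 1)) +
    2 * (R : ℝ) ^ 6 * ∑ a, qTerm A T N (S a) (z a)

/-- The change of the patterns for a spin `e`. -/
def spinD (f : ℝ → ℝ) (N : ℕ) (S z : Fin n → ℝ) (e : ℝ) : ℝ :=
  ∑ a, (f (Real.sqrt (1 - e ^ 2 / (N + 1 : ℝ)) * S a + e / Real.sqrt (N + 1 : ℝ) * z a) - f (S a))

lemma spin_lower (hN : 0 < N) (hf : Smooth f A) (hR : 0 < R) (hRN : (R : ℝ) ^ 2 ≤ N + 1) {e : ℝ}
    (he : |e| ≤ R) (S z : Fin n → ℝ) :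
    e * cY f N S z + e ^ 2 * cB f T N S - remA f A T N R S z ≤ spinD f N S z e := by
  refine le_trans ?_ (Finset.sum_le_sum fun a _ =>
    spin_term (T := T) hN hf hR hRN he (S a) (z a))
  rw [Finset.sum_sub_distrib, Finset.sum_add_distrib, Finset.sum_add_distrib, ← Finset.mul_sum,
    ← Finset.mul_sum, ← Finset.mul_sum, ← Finset.mul_sum, ← Finset.sum_div, ← Finset.sum_div,
    ← Finset.sum_div, remA, cY, cB]
  have he2 : e ^ 2 ≤ (R : ℝ) ^ 2 := by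
    rw [← sq_abs]; exact pow_le_pow_left₀ (abs_nonneg e) he 2
  set X := ∑ a, deriv (deriv f) (S a) * (z a ^ 2 - 1) with hX
  have h : -((R : ℝ) ^ 2 * |X| / (2 * (N + 1))) ≤ e ^ 2 * (X / (2 * (N + 1))) := by
    rw [mul_div_assoc', ← neg_div]
    refine div_le_div_of_nonneg_right ?_ (by positivity)
    nlinarith [mul_le_mul_of_nonneg_left (neg_abs_le X) (sq_nonneg e),
      mul_le_mul_of_nonneg_right he2 (abs_nonneg X)]
  linarith

lemma abs_spin_le (hm : 0 < m) (p : Fin (R * m) × Bool) : |spin m p.1 p.2| ≤ R := by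
  have h : ((p.1 : ℕ) : ℝ) / m ≤ R := by
    rw [div_le_iff₀ (Nat.cast_pos.2 hm)]
    exact_mod_cast p.1.2.le
  unfold spin
  split
  · rwa [abs_of_nonneg (by positivity)]
  · rwa [abs_neg, abs_of_nonneg (by positivity)]

lemma grid_lower (hN : 0 < N) (hm : 0 < m) (hf : Smooth f A) (hR : 0 < R)
    (hRN : (R : ℝ) ^ 2 ≤ N + 1) (S z : Fin n → ℝ) :
    gridSum R m (cY f N S z) (cB f T N S) * Real.exp (-remA f A T N R S z) ≤
      ∑ p : Fin (R * m) × Bool, cellW m p.1 * Real.exp (spinD f N S z (spin m p.1 p.2)) := by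
  rw [gridSum, Finset.sum_range, Fintype.sum_prod_type, Finset.sum_mul]
  refine Finset.sum_le_sum fun j _ => ?_
  rw [Fintype.sum_bool]
  have h : ∀ b : Bool, Real.exp (spin m j b * cY f N S z) *
      Real.exp (spin m j b ^ 2 * cB f T N S) * Real.exp (-remA f A T N R S z) ≤
      Real.exp (spinD f N S z (spin m j b)) := fun b => by
    rw [← Real.exp_add, ← Real.exp_add]
    exact Real.exp_le_exp.2
      (by linarith [spin_lower (T := T) hN hf hR hRN (abs_spin_le hm (j, b)) S z])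
  have h1 := mul_le_mul_of_nonneg_left (add_le_add (h true) (h false)) (cellW_nonneg m j)
  simp only [spin, if_true, Bool.false_eq_true, if_false, neg_sq, neg_mul] at h1 ⊢
  refine le_trans (le_of_eq ?_) (h1.trans_eq (mul_add _ _ _))
  rw [Real.cosh_eq]
  ring

/-- The configurations of the larger system in the coupling, weighted. -/
def gridW (m : ℕ) (q : Conf P × Fin (R * m) × Bool) : ℝ := cellW m q.2.1

/-- Their vectors. -/
def gridV (m : ℕ) (q : Conf P × Fin (R * m) × Bool) : Fin (N + 1) → ℝ :=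
  newV (unitVec q.1) (spin m q.2.1 q.2.2)

lemma dot_newV_right (g u : Fin N → ℝ) (z e : ℝ) :
    dot (Fin.snoc g z : Fin (N + 1) → ℝ) (newV u e) =
      Real.sqrt (1 - e ^ 2 / (N + 1 : ℝ)) * dot g u + e / Real.sqrt (N + 1 : ℝ) * z := by
  rw [newV, dot_snoc_snoc, mul_comm z]
  congr 1
  rw [dot, dot, Finset.mul_sum]
  exact Finset.sum_congr rfl fun i _ => by ring

/-- The error functional. -/
def errF (P : Pts N) (f : ℝ → ℝ) (A T η : ℝ) (R : ℕ) (s : ℝ) (x : Fin L → ℝ) (b : Base N L n)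
    (z : Fin n → ℝ) : ℝ :=
  gav (ham (P := P) f s x b) fun σ =>
    η * Real.cosh (2 * R * cY f N (fld b.1 σ) z) + remA f A T N R (fld b.1 σ) z ^ 2 / η

/-- The pointwise cavity bound. -/
theorem site_pointwise (hN : 0 < N) (hm : 0 < m) (hR : 0 < R) (hRN : (R : ℝ) ^ 2 ≤ N + 1)
    (hf : Smooth f A) (hT : 0 ≤ T) {η : ℝ} (hη : 0 < η) (b : Base N L n) (z : Fin n → ℝ) :
    cavInt P f R m T s x b z - (R * m : ℕ) * Real.exp ((R : ℝ) ^ 2 * (n * bCav A T N)) /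
        (2 * cellW m 0) * errF P f A T η R s x b z ≤
      lW (gridW (P := P) (R := R) m) f s x (gridV m) (fun q => unitVec q.1) (snocPat b.1 z, b.2) -
        logZ (ham (P := P) f s x b) := by
  set H := ham (P := P) f s x b with hH
  set G : Conf P → ℝ := fun σ =>
    ∑ p : Fin (R * m) × Bool, cellW m p.1 * Real.exp (spinD f N (fld b.1 σ) z (spin m p.1 p.2))
    with hG
  set X : Conf P → ℝ := fun σ => gridSum R m (cY f N (fld b.1 σ) z) (cB f T N (fld b.1 σ)) with hX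
  set ρ : Conf P → ℝ := fun σ => -remA f A T N R (fld b.1 σ) z with hρ
  have hlow : ∀ σ, X σ * Real.exp (ρ σ) ≤ G σ := fun σ => grid_lower hN hm hf hR hRN _ z
  have hc := mul_pos two_pos (cellW_zero_pos hm)
  have hXc : ∀ σ, 2 * cellW m 0 ≤ X σ := fun σ => cellW_zero_le_gridSum hm hR _ _
  have hXpos : ∀ σ, 0 < X σ := fun σ => hc.trans_le (hXc σ)
  have hpe : ∀ σ, 0 < X σ * Real.exp (ρ σ) := fun σ => mul_pos (hXpos σ) (Real.exp_pos _)
  have hdiff : lW (gridW (P := P) (R := R) m) f s x (gridV m) (fun q => unitVec q.1)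
      (snocPat b.1 z, b.2) - logZ H = Real.log (gav H G) := by
    rw [lW]
    refine logZ_sub_eq (H := H) ?_ fun σ => (hpe σ).trans_le (hlow σ)
    rw [Fintype.sum_prod_type]
    refine Finset.sum_congr rfl fun σ _ => ?_
    rw [hG, Finset.mul_sum]
    refine Finset.sum_congr rfl fun p _ => ?_
    rw [mul_left_comm, ← Real.exp_add]
    simp only [gridW, gridV, hv, snocPat, dot_newV_right, spinD, hH, ham, patH, pertH_eq, fld,
      Finset.sum_sub_distrib]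
    ring_nf
  rw [hdiff]
  have hmono : Real.log (gav H fun σ => X σ * Real.exp (ρ σ)) ≤ Real.log (gav H G) :=
    Real.log_le_log (Finset.sum_pos (fun σ _ =>
      mul_pos (Vale.Agent.P168.Limit.gw_pos H σ) (hpe σ)) Finset.univ_nonempty)
      (Vale.Agent.P168.Limit.gav_mono H hlow)
  refine le_trans ?_ ((gav_exp_lower H X ρ hXpos).trans hmono)
  show Real.log (gav H X) - _ ≤ _
  set E := Real.exp ((R : ℝ) ^ 2 * (n * bCav A T N)) with hE
  have hk : (0 : ℝ) ≤ ((R * m : ℕ) : ℝ) * E := by positivity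
  have hden : 2 * cellW m 0 ≤ gav H X := by
    rw [← Vale.Agent.P168.Limit.gav_const H (2 * cellW m 0)]
    exact Vale.Agent.P168.Limit.gav_mono H hXc
  have hgp : 0 < gav H X := hc.trans_le hden
  have hnum : |gav H fun σ => X σ * ρ σ| ≤
      ((R * m : ℕ) : ℝ) * E * errF P f A T η R s x b z := by
    rw [errF, ← hH, ← Vale.Agent.P168.Limit.gav_const_mul]
    refine (Vale.Agent.P168.Limit.abs_gav_le _ _).trans
      (Vale.Agent.P168.Limit.gav_mono H fun σ => ?_)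
    rw [abs_mul, abs_of_pos (hXpos σ)]
    refine (mul_le_mul_of_nonneg_right (gridSum_le (R := R) (m := m)
      (y := cY f N (fld b.1 σ) z) (abs_cB_le hf hT _)) (abs_nonneg _)).trans ?_
    set c := Real.cosh (R * cY f N (fld b.1 σ) z)
    have h0 : 2 * c * |ρ σ| ≤ η * Real.cosh (2 * R * cY f N (fld b.1 σ) z) +
        remA f A T N R (fld b.1 σ) z ^ 2 / η := by
      have h2 : c ^ 2 ≤ Real.cosh (2 * R * cY f N (fld b.1 σ) z) := by
        rw [mul_assoc 2, Real.cosh_two_mul]; nlinarith [sq_nonneg (Real.sinh (R * cY f N (fld b.1 σ) z))]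
      have h4 : ρ σ ^ 2 = remA f A T N R (fld b.1 σ) z ^ 2 := neg_sq _
      have h5 : 0 ≤ (η * c - |ρ σ|) ^ 2 / η := by positivity
      have h6 : (η * c - |ρ σ|) ^ 2 / η = η * c ^ 2 - 2 * c * |ρ σ| + ρ σ ^ 2 / η := by
        field_simp; rw [sub_sq, mul_pow, sq_abs]; ring
      rw [← h4]
      nlinarith [mul_le_mul_of_nonneg_left h2 hη.le]
    calc ((R * m : ℕ) : ℝ) * (2 * c * E) * |ρ σ| = ((R * m : ℕ) : ℝ) * E * (2 * c * |ρ σ|) := by ring
      _ ≤ _ := mul_le_mul_of_nonneg_left h0 hk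
  have herr0 : 0 ≤ ((R * m : ℕ) : ℝ) * E * errF P f A T η R s x b z :=
    (abs_nonneg _).trans hnum
  have hq : -(gav H fun σ => X σ * ρ σ) / gav H X ≤
      ((R * m : ℕ) : ℝ) * E / (2 * cellW m 0) * errF P f A T η R s x b z := by
    rw [div_mul_eq_mul_div, div_le_div_iff₀ hgp hc]
    exact (mul_le_mul_of_nonneg_right ((neg_le_abs _).trans hnum) hc.le).trans
      (mul_le_mul_of_nonneg_left hden herr0)
  rw [neg_div] at hq
  linarith

end Vale.Agent.P157.Parisi.Sphere.Cavity
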