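import Vale.Agent.P157.Parisi.Cavity.Moments
import Vale.Agent.P157.Parisi.Sphere.Cavity.Expand

/-!
The expected error of the expansion at a given number of patterns.
-/

noncomputable section

open MeasureTheory ProbabilityTheory
open scoped BigOperators

namespace Vale.Agent.P157.Parisi.Sphere.Cavity

open Vale.Agent.P168.Limit (gw gav)
open Vale.Agent.P168.Toolkit (integrable_exp_linear integral_exp_linear)
open Vale.Agent.P157.Parisi.Cavity (Base baseLaw qTerm qTerm_sq_le m₄ m₆ tail m₄_nonneg m₆_nonneg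
  integrable_pow_six integrable_tail continuous_clampT integral_dot_unit integrable_dot_unit
  gw_le_exp_mul integral_centred_sum_sq integrable_coord_six)

variable {N L n R : ℕ} {P : Pts N} {f : ℝ → ℝ} {A s T : ℝ} {x : Fin L → ℝ}

/-- An observable of one pattern under the Gibbs mean. -/
def patObs (P : Pts N) (φ : ℝ → ℝ) (f : ℝ → ℝ) (s : ℝ) (x : Fin L → ℝ) (a : Fin n)
    (b : Base N L n) : ℝ :=
  gav (ham (P := P) f s x b) fun σ => φ (fld b.1 σ a)

lemma unit_sq (hN : 0 < N) (σ : Conf P) : ∑ i, unitVec σ i ^ 2 = 1 := P.norm_one hN σ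

lemma measurable_gw_ham (hf : Smooth f A) (σ : Conf P) :
    Measurable fun b : Base N L n => gw (ham (P := P) f s x b) σ :=
  (measurable_ham hf σ).exp.div (Finset.measurable_sum _ fun τ _ => (measurable_ham hf τ).exp)

lemma integrable_patObs (hN : 0 < N) (hf : Smooth f A) {φ : ℝ → ℝ}
    (hφ : Integrable φ (gaussianReal 0 1)) (a : Fin n) :
    Integrable (patObs P φ f s x a : Base N L n → ℝ) (baseLaw N L n) := by
  unfold patObs gav
  refine integrable_finsetSum _ fun σ _ => ?_
  refine Integrable.bdd_mul (c := 1) ?_ (measurable_gw_ham hf σ).aestronglyMeasurable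
    (ae_of_all _ fun b => ?_)
  · exact ((measurePreserving_eval (fun _ : Fin n => gam (Fin N)) a).integrable_comp_of_integrable
      (integrable_dot_unit (unit_sq hN σ) hφ)).comp_fst _
  · rw [Real.norm_eq_abs, abs_of_nonneg (Vale.Agent.P168.Limit.gw_nonneg _ _)]
    exact Vale.Agent.P168.Limit.gw_le_one _ _

/-- Under the Gibbs mean a pattern is Gaussian up to `exp (2 A)`. -/
theorem integral_patObs_le (hN : 0 < N) (hf : Smooth f A) {φ : ℝ → ℝ} (hφm : Measurable φ)
    (hφ : Integrable φ (gaussianReal 0 1)) (hφ0 : ∀ y, 0 ≤ φ y) (a : Fin n) :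
    ∫ b : Base N L n, patObs P φ f s x a b ∂baseLaw N L n ≤
      Real.exp (2 * A) * ∫ y, φ y ∂gaussianReal 0 1 := by
  obtain _ | k := n
  · exact a.elim0
  have hmp : MeasurePreserving
      (fun b : Base N L (k + 1) => ((b.1 a, ((fun j => b.1 (a.succAbove j), b.2) : Base N L k)) :
        (Fin N → ℝ) × Base N L k))
      (baseLaw N L (k + 1)) ((gam (Fin N)).prod (baseLaw N L k)) := by
    have h1 := (measurePreserving_piFinSuccAbove (fun _ : Fin (k + 1) => gam (Fin N)) a).prod
      (MeasurePreserving.id (gam (PertIdx N L)))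
    have h2 := measurePreserving_prodAssoc (gam (Fin N)) (Measure.pi fun _ : Fin k => gam (Fin N))
      (gam (PertIdx N L))
    exact h2.comp h1
  set Ψ : (Fin N → ℝ) × Base N L k → ℝ := fun p =>
    ∑ σ : Conf P, gw (ham (P := P) f s x p.2) σ * φ (dot p.1 (unitVec σ)) with hΨ
  have hle : ∀ b : Base N L (k + 1), patObs P φ f s x a b ≤
      Real.exp (2 * A) * Ψ (b.1 a, ((fun j => b.1 (a.succAbove j), b.2) : Base N L k)) := by
    intro b
    rw [patObs, gav, hΨ, Finset.mul_sum]
    refine Finset.sum_le_sum fun σ _ => ?_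
    rw [← mul_assoc, show ham (P := P) f s x b = fun σ => f (dot (b.1 a) (unitVec σ)) +
      ham (P := P) f s x ((fun j => b.1 (a.succAbove j), b.2) : Base N L k) σ from funext fun σ => by
        simp only [ham, patH, fld, Fin.sum_univ_succAbove _ a]; ring]
    exact mul_le_mul_of_nonneg_right (gw_le_exp_mul _ _ (fun _ => hf.b0 _) σ) (hφ0 _)
  have hterm : ∀ σ : Conf P, Integrable (fun p : (Fin N → ℝ) × Base N L k =>
      gw (ham (P := P) f s x p.2) σ * φ (dot p.1 (unitVec σ)))
      ((gam (Fin N)).prod (baseLaw N L k)) := by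
    intro σ
    refine Integrable.bdd_mul (c := 1) ((integrable_dot_unit (unit_sq hN σ) hφ).comp_fst _)
      ((measurable_gw_ham hf σ).comp measurable_snd).aestronglyMeasurable (ae_of_all _ fun p => ?_)
    rw [Real.norm_eq_abs, abs_of_nonneg (Vale.Agent.P168.Limit.gw_nonneg _ _)]
    exact Vale.Agent.P168.Limit.gw_le_one _ _
  have hΨi : Integrable Ψ ((gam (Fin N)).prod (baseLaw N L k)) :=
    integrable_finsetSum _ fun σ _ => hterm σ
  have hΨe : ∫ p, Ψ p ∂((gam (Fin N)).prod (baseLaw N L k)) = ∫ y, φ y ∂gaussianReal 0 1 := by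
    rw [integral_prod_symm _ hΨi]
    have : ∀ b : Base N L k, ∫ y, Ψ (y, b) ∂gam (Fin N) = ∫ y, φ y ∂gaussianReal 0 1 := by
      intro b
      simp only [hΨ]
      rw [integral_finsetSum _ fun σ _ =>
        (integrable_dot_unit (unit_sq hN σ) hφ).const_mul _]
      simp only [integral_const_mul, integral_dot_unit (unit_sq hN _) hφm]
      rw [← Finset.sum_mul, Vale.Agent.P168.Limit.sum_gw, one_mul]
    simp only [this, integral_const, probReal_univ, one_smul]
  refine (integral_mono (integrable_patObs hN hf hφ a) ((hmp.integrable_comp_of_integrable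
    hΨi).const_mul (Real.exp (2 * A))) hle).trans_eq ?_
  rw [integral_const_mul, ← hΨe]
  congr 1
  rw [← hmp.map_eq, integral_map hmp.measurable.aemeasurable
    (by rw [hmp.map_eq]; exact hΨi.aestronglyMeasurable)]
  rfl

/-- The majorant of the squared remainder, up to a power of `R`. -/
def remBound (f : ℝ → ℝ) (A T : ℝ) (N : ℕ) (S z : Fin n → ℝ) : ℝ :=
  (∑ a, deriv (deriv f) (S a) * (z a ^ 2 - 1)) ^ 2 / (2 * (N + 1 : ℝ) ^ 2) +
    n * A ^ 2 / N ^ 2 * ∑ a, (24300 / N * (1 + z a ^ 6 + S a ^ 6) + (S a - clampT T (S a)) ^ 2)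

lemma remA_sq_le (hN : 0 < N) (hR : 0 < R) (S z : Fin n → ℝ) :
    remA f A T N R S z ^ 2 ≤ 4 * (R : ℝ) ^ 12 * remBound f A T N S z := by
  have hR1 : (1 : ℝ) ≤ R := Nat.one_le_cast.2 hR
  set X := ∑ a, deriv (deriv f) (S a) * (z a ^ 2 - 1)
  set Q := ∑ a, qTerm A T N (S a) (z a) with hQ
  have h2 : 2 * Q ^ 2 ≤ n * A ^ 2 / N ^ 2 *
      ∑ a, (24300 / N * (1 + z a ^ 6 + S a ^ 6) + (S a - clampT T (S a)) ^ 2) := by
    refine (mul_le_mul_of_nonneg_left
      (sq_sum_le_card_mul_sum_sq (s := (Finset.univ : Finset (Fin n)))) two_pos.le).trans ?_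
    rw [Finset.card_univ, Fintype.card_fin, Finset.mul_sum, Finset.mul_sum, Finset.mul_sum]
    refine Finset.sum_le_sum fun a _ => ?_
    have := mul_le_mul_of_nonneg_left
      (qTerm_sq_le (A := A) (T := T) hN (S a) (z a)) (Nat.cast_nonneg (α := ℝ) n)
    exact (le_of_eq (by ring)).trans (this.trans_eq (by ring))
  rw [remA, remBound, ← hQ]
  refine add_sq_le.trans ?_
  have h1 : 2 * ((R : ℝ) ^ 2 * |X| / (2 * (N + 1))) ^ 2 ≤
      4 * (R : ℝ) ^ 12 * (X ^ 2 / (2 * (N + 1 : ℝ) ^ 2)) := by
    rw [div_pow, mul_pow, sq_abs, ← pow_mul]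
    calc 2 * ((R : ℝ) ^ (2 * 2) * X ^ 2 / (2 * (N + 1 : ℝ)) ^ 2)
        = (R : ℝ) ^ 4 * (X ^ 2 / (2 * (N + 1 : ℝ) ^ 2)) := by field_simp; ring
      _ ≤ 4 * (R : ℝ) ^ 12 * (X ^ 2 / (2 * (N + 1 : ℝ) ^ 2)) := by
          refine mul_le_mul_of_nonneg_right ?_ (by positivity)
          linarith [pow_le_pow_right₀ hR1 (show 4 ≤ 12 by norm_num),
            pow_nonneg (zero_le_one.trans hR1) 12]
  have h3 := mul_le_mul_of_nonneg_left h2 (show (0 : ℝ) ≤ 4 * (R : ℝ) ^ 12 by positivity)
  linarith

/-- The majorant of the error functional after integrating the new coordinates. -/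
def errB (P : Pts N) (f : ℝ → ℝ) (A T η : ℝ) (R : ℕ) (s : ℝ) (x : Fin L → ℝ) (b : Base N L n) : ℝ :=
  η * Real.exp (2 * n * ((R : ℝ) ^ 2 * A ^ 2) / N) + 4 * (R : ℝ) ^ 12 *
    (n * A ^ 2 * m₄ / (2 * N ^ 2) + n * A ^ 2 / N ^ 2 *
      ∑ a, (24300 / N * (1 + m₆ + patObs P (fun y => y ^ 6) f s x a b) +
        patObs P (fun y => (y - clampT T y) ^ 2) f s x a b)) / η

lemma integral_cosh_le (hf : Smooth f A) (S : Fin n → ℝ) :
    Integrable (fun z => Real.cosh (2 * R * cY f N S z)) (gam (Fin n)) ∧
      ∫ z, Real.cosh (2 * R * cY f N S z) ∂gam (Fin n) ≤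
        Real.exp (2 * n * ((R : ℝ) ^ 2 * A ^ 2) / N) := by
  set c : Fin n → ℝ := fun a => 2 * R * deriv f (S a) / Real.sqrt N with hc
  have e : ∀ z, 2 * R * cY f N S z = ∑ a, c a * z a := fun z => by
    rw [cY, mul_div_assoc', Finset.mul_sum, Finset.sum_div]
    exact Finset.sum_congr rfl fun a _ => by rw [hc]; ring
  have e' : ∀ z : Fin n → ℝ, -(∑ a, c a * z a) = ∑ a, (-c) a * z a := fun z => by
    simp [Finset.sum_neg_distrib]
  simp only [e, Real.cosh_eq, e']
  refine ⟨((integrable_exp_linear c).add (integrable_exp_linear (-c))).div_const 2, ?_⟩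
  rw [integral_div, integral_add (integrable_exp_linear c) (integrable_exp_linear (-c)),
    integral_exp_linear, integral_exp_linear]
  have hb : (∑ a, c a ^ 2) / 2 ≤ 2 * n * ((R : ℝ) ^ 2 * A ^ 2) / N := by
    have : ∀ a, c a ^ 2 ≤ 4 * ((R : ℝ) ^ 2 * A ^ 2) / N := fun a => by
      rw [hc, div_pow, Real.sq_sqrt N.cast_nonneg, mul_pow, mul_pow, mul_assoc]
      norm_num
      gcongr ?_ / _
      refine mul_le_mul_of_nonneg_left (mul_le_mul_of_nonneg_left ?_ (sq_nonneg _)) (by norm_num)
      exact sq_le_sq.2 ((hf.b1 _).trans (le_abs_self A))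
    have hs : ∑ a, c a ^ 2 ≤ (n : ℝ) * (4 * ((R : ℝ) ^ 2 * A ^ 2) / N) :=
      (Finset.sum_le_card_nsmul _ _ _ fun a _ => this a).trans_eq (by simp)
    refine (div_le_div_of_nonneg_right hs two_pos.le).trans_eq ?_
    ring
  have := Real.exp_le_exp.2 hb
  simp only [Pi.neg_apply, neg_sq]
  linarith

lemma integral_remBound (hN : 0 < N) (hf : Smooth f A) (S : Fin n → ℝ) :
    Integrable (fun z => remBound f A T N S z) (gam (Fin n)) ∧
      ∫ z, remBound f A T N S z ∂gam (Fin n) ≤ n * A ^ 2 * m₄ / (2 * N ^ 2) +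
        n * A ^ 2 / N ^ 2 * ∑ a, (24300 / N * (1 + m₆ + S a ^ 6) + (S a - clampT T (S a)) ^ 2) := by
  obtain ⟨i1, e1⟩ := integral_centred_sum_sq fun a => deriv (deriv f) (S a)
  have j0 : ∀ a, Integrable (fun z : Fin n → ℝ => 1 + z a ^ 6 + S a ^ 6) (gam (Fin n)) := fun a =>
    ((integrable_const _).add (integrable_coord_six a)).add (integrable_const _)
  have j1 : ∀ a, Integrable (fun z : Fin n → ℝ => 24300 / (N : ℝ) * (1 + z a ^ 6 + S a ^ 6) +
      (S a - clampT T (S a)) ^ 2) (gam (Fin n)) := fun a =>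
    ((j0 a).const_mul _).add (integrable_const _)
  have i2 := (integrable_finsetSum (Finset.univ : Finset (Fin n)) fun a _ => j1 a).const_mul
    ((n : ℝ) * A ^ 2 / N ^ 2)
  refine ⟨(i1.div_const _).add i2, ?_⟩
  unfold remBound
  rw [integral_add (i1.div_const _) i2, integral_div, e1, integral_const_mul,
    integral_finsetSum _ fun a _ => j1 a]
  refine add_le_add ?_ (le_of_eq ?_)
  · have hs : ∑ a, deriv (deriv f) (S a) ^ 2 ≤ n * A ^ 2 :=
      (Finset.sum_le_card_nsmul _ _ (A ^ 2) fun a _ =>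
        sq_le_sq.2 ((hf.b2 _).trans (le_abs_self A))).trans_eq (by simp)
    refine div_le_div₀ (mul_nonneg (by positivity) m₄_nonneg)
      (mul_le_mul_of_nonneg_right hs m₄_nonneg) (by positivity) ?_
    gcongr
    linarith
  · congr 1
    refine Finset.sum_congr rfl fun a _ => ?_
    have hq : Integrable (fun z : Fin n → ℝ => 1 + z a ^ 6) (gam (Fin n)) :=
      (integrable_const _).add (integrable_coord_six a)
    rw [integral_add ((j0 a).const_mul _) (integrable_const _), integral_const_mul,
      integral_add hq (integrable_const _),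
      integral_add (integrable_const _) (integrable_coord_six a),
      integral_comp_eval (μ := fun _ : Fin n => gaussianReal 0 1) (f := fun y : ℝ => y ^ 6)
        (by fun_prop)]
    simp [m₆]

lemma measurable_errF (hf : Smooth f A) (η : ℝ) :
    Measurable fun p : Base N L n × (Fin n → ℝ) => errF P f A T η R s x p.1 p.2 := by
  have hd1 := hf.d1.continuous.measurable
  have hd2 := hf.d2.continuous.measurable
  have hg : ∀ (a : Fin n) (σ : Conf P),
      Measurable fun p : Base N L n × (Fin n → ℝ) => fld p.1.1 σ a :=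
    fun a σ => (measurable_fld σ a).comp (measurable_fst.comp measurable_fst)
  have hz : ∀ a, Measurable fun p : Base N L n × (Fin n → ℝ) => p.2 a := fun a =>
    (measurable_pi_apply a).comp measurable_snd
  have hc := (continuous_clampT (T := T)).measurable
  unfold errF gav
  refine Finset.measurable_sum _ fun σ _ => ((measurable_gw_ham hf σ).comp measurable_fst).mul ?_
  unfold cY remA qTerm
  refine ((Real.continuous_cosh.measurable.comp (((Finset.measurable_sum _ fun a _ =>
    (hz a).mul (hd1.comp (hg a σ))).div_const _).const_mul _)).const_mul η).add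
    ((Measurable.pow_const (Measurable.add (((continuous_abs.measurable.comp
      (Finset.measurable_sum _ fun a _ => (hd2.comp (hg a σ)).mul
        (((hz a).pow_const 2).sub_const 1))).const_mul _).div_const _)
      ((Finset.measurable_sum _ fun a _ => ?_).const_mul _)) 2).div_const η)
  exact (((((measurable_const.add (continuous_abs.measurable.comp (hz a))).add
    (continuous_abs.measurable.comp (hg a σ))).pow_const 3).const_mul _).mul_const _).add
      (((continuous_abs.measurable.comp ((hg a σ).sub (hc.comp (hg a σ)))).const_mul A).div_const _)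

lemma errF_nonneg {η : ℝ} (hη : 0 < η) (b : Base N L n) (z : Fin n → ℝ) :
    0 ≤ errF P f A T η R s x b z := by
  unfold errF gav
  exact Finset.sum_nonneg fun σ _ => mul_nonneg (Vale.Agent.P168.Limit.gw_nonneg _ _)
    (add_nonneg (mul_nonneg hη.le (Real.cosh_pos _).le) (div_nonneg (sq_nonneg _) hη.le))

/-- The error functional at fixed base. -/
theorem errF_inner (hN : 0 < N) (hR : 0 < R) (hf : Smooth f A) {η : ℝ} (hη : 0 < η)
    (b : Base N L n) :
    Integrable (errF P f A T η R s x b) (gam (Fin n)) ∧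
      ∫ z, errF P f A T η R s x b z ∂gam (Fin n) ≤ errB P f A T η R s x b := by
  set G : Conf P → (Fin n → ℝ) → ℝ := fun σ z => η * Real.cosh (2 * R * cY f N (fld b.1 σ) z) +
    4 * (R : ℝ) ^ 12 * remBound f A T N (fld b.1 σ) z / η with hG
  have hGi : ∀ σ, Integrable (G σ) (gam (Fin n)) := fun σ =>
    ((integral_cosh_le hf (fld b.1 σ)).1.const_mul η).add
      (((integral_remBound hN hf (fld b.1 σ)).1.const_mul _).div_const η)
  have hle : ∀ z, errF P f A T η R s x b z ≤ ∑ σ, gw (ham (P := P) f s x b) σ * G σ z := fun z =>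
    Vale.Agent.P168.Limit.gav_mono _ fun σ =>
      add_le_add le_rfl (div_le_div_of_nonneg_right (remA_sq_le hN hR _ _) hη.le)
  have hi : Integrable (fun z => ∑ σ, gw (ham (P := P) f s x b) σ * G σ z) (gam (Fin n)) :=
    integrable_finsetSum _ fun σ _ => (hGi σ).const_mul _
  have hF : Integrable (errF P f A T η R s x b) (gam (Fin n)) := hi.mono'
    ((measurable_errF hf η).comp (measurable_const.prodMk measurable_id)).aestronglyMeasurable
    (ae_of_all _ fun z => by
      rw [Real.norm_eq_abs, abs_of_nonneg (errF_nonneg hη b z)]; exact hle z)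
  refine ⟨hF, (integral_mono hF hi hle).trans ?_⟩
  rw [integral_finsetSum _ fun σ _ => (hGi σ).const_mul _]
  simp only [integral_const_mul]
  have hb : ∀ σ, ∫ z, G σ z ∂gam (Fin n) ≤ η * Real.exp (2 * n * ((R : ℝ) ^ 2 * A ^ 2) / N) +
      4 * (R : ℝ) ^ 12 * (n * A ^ 2 * m₄ / (2 * N ^ 2) + n * A ^ 2 / N ^ 2 *
        ∑ a, (24300 / N * (1 + m₆ + fld b.1 σ a ^ 6) +
          (fld b.1 σ a - clampT T (fld b.1 σ a)) ^ 2)) / η := by
    intro σ
    simp only [hG]
    rw [integral_add ((integral_cosh_le hf (fld b.1 σ)).1.const_mul η)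
      (((integral_remBound hN hf (fld b.1 σ)).1.const_mul _).div_const η), integral_const_mul,
      integral_div, integral_const_mul]
    exact add_le_add (mul_le_mul_of_nonneg_left (integral_cosh_le hf _).2 hη.le)
      (div_le_div_of_nonneg_right (mul_le_mul_of_nonneg_left (integral_remBound hN hf _).2
        (by positivity)) hη.le)
  refine (Vale.Agent.P168.Limit.gav_mono (ham (P := P) f s x b) hb).trans_eq ?_
  simp only [errB, patObs, div_eq_mul_inv, mul_comm _ η⁻¹]
  simp only [Vale.Agent.P168.Limit.gav_add, Vale.Agent.P168.Limit.gav_const_mul,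
    Vale.Agent.P168.Limit.gav_const, Vale.Agent.P168.Limit.gav_sum, mul_add, Finset.mul_sum]

/-- The error functional over everything. -/
theorem errF_total (hN : 0 < N) (hR : 0 < R) (hf : Smooth f A) (hT : 0 ≤ T) {η : ℝ} (hη : 0 < η) :
    Integrable (fun p : Base N L n × (Fin n → ℝ) => errF P f A T η R s x p.1 p.2)
        ((baseLaw N L n).prod (gam (Fin n))) ∧
      ∫ p : Base N L n × (Fin n → ℝ), errF P f A T η R s x p.1 p.2
          ∂(baseLaw N L n).prod (gam (Fin n)) ≤
        η * Real.exp (2 * n * ((R : ℝ) ^ 2 * A ^ 2) / N) +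
          4 * (R : ℝ) ^ 12 * (Real.exp (2 * A) * A ^ 2 * Real.exp (2 * n / N) *
            ((m₄ + 24300 * (1 + 2 * m₆)) / N + tail T)) / η := by
  have hm := (measurable_errF (P := P) (R := R) (T := T) (s := s) (x := x) (n := n) hf η).aestronglyMeasurable
    (μ := (baseLaw N L n).prod (gam (Fin n)))
  have h : ∀ a : Fin n, Integrable (fun b : Base N L n =>
      24300 / (N : ℝ) * (1 + m₆ + patObs P (fun y => y ^ 6) f s x a b) +
        patObs P (fun y => (y - clampT T y) ^ 2) f s x a b) (baseLaw N L n) := fun a =>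
    (((integrable_const _).add (integrable_patObs hN hf integrable_pow_six a)).const_mul _).add
      (integrable_patObs hN hf (integrable_tail hT) a)
  have i3 := (integrable_finsetSum (Finset.univ : Finset (Fin n)) fun a _ => h a).const_mul
    ((n : ℝ) * A ^ 2 / N ^ 2)
  have i4 : Integrable (fun b : Base N L n => n * A ^ 2 * m₄ / (2 * N ^ 2) +
      n * A ^ 2 / N ^ 2 * ∑ a, (24300 / N * (1 + m₆ + patObs P (fun y => y ^ 6) f s x a b) +
        patObs P (fun y => (y - clampT T y) ^ 2) f s x a b)) (baseLaw N L n) :=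
    (integrable_const _).add i3
  have hB : Integrable (errB P f A T η R s x : Base N L n → ℝ) (baseLaw N L n) :=
    (integrable_const _).add ((i4.const_mul _).div_const η)
  have hi : Integrable (fun p : Base N L n × (Fin n → ℝ) => errF P f A T η R s x p.1 p.2)
      ((baseLaw N L n).prod (gam (Fin n))) := by
    refine (integrable_prod_iff hm).2 ⟨ae_of_all _ fun b => (errF_inner hN hR hf hη b).1, ?_⟩
    refine hB.mono' hm.norm.integral_prod_right' (ae_of_all _ fun b => ?_)
    simp only [Real.norm_eq_abs, abs_of_nonneg (errF_nonneg hη b _)]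
    rw [abs_of_nonneg (integral_nonneg (errF_nonneg hη b))]
    exact (errF_inner hN hR hf hη b).2
  refine ⟨hi, ?_⟩
  rw [integral_prod _ hi]
  refine (integral_mono hi.integral_prod_left hB
    fun b => (errF_inner hN hR hf hη b).2).trans ?_
  have hA2 : 1 ≤ Real.exp (2 * A) := Real.one_le_exp (by linarith [(abs_nonneg _).trans (hf.b0 0)])
  have hsum : ∀ a : Fin n, ∫ b : Base N L n,
      (24300 / (N : ℝ) * (1 + m₆ + patObs P (fun y => y ^ 6) f s x a b) +
        patObs P (fun y => (y - clampT T y) ^ 2) f s x a b) ∂baseLaw N L n ≤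
      Real.exp (2 * A) * (24300 * (1 + 2 * m₆) / N + tail T) := by
    intro a
    have i6 := integrable_patObs (P := P) (s := s) (x := x) hN hf integrable_pow_six a
    have j6 : Integrable (fun b : Base N L n => 1 + m₆ + patObs P (fun y => y ^ 6) f s x a b)
        (baseLaw N L n) := (integrable_const _).add i6
    rw [integral_add (j6.const_mul _) (integrable_patObs hN hf (integrable_tail hT) a),
      integral_const_mul, integral_add (integrable_const _) i6, integral_const, probReal_univ,
      one_smul, mul_add (Real.exp (2 * A))]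
    refine add_le_add ?_ (integral_patObs_le hN hf
      ((continuous_id.sub continuous_clampT).pow 2).measurable (integrable_tail hT)
      (fun y => sq_nonneg _) a)
    have h6 := integral_patObs_le (P := P) (s := s) (x := x) hN hf (φ := fun y => y ^ 6)
      (by fun_prop) integrable_pow_six (fun y => by positivity) a
    rw [← m₆] at h6
    rw [div_mul_eq_mul_div, mul_div_assoc' (Real.exp (2 * A))]
    refine div_le_div_of_nonneg_right ?_ (Nat.cast_nonneg N)
    nlinarith [mul_le_mul_of_nonneg_right hA2 (add_nonneg zero_le_one m₆_nonneg)]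
  unfold errB
  rw [integral_add (integrable_const _) ((i4.const_mul _).div_const η),
    integral_const, probReal_univ, one_smul, integral_div, integral_const_mul,
    integral_add (integrable_const _) i3, integral_const, probReal_univ, one_smul,
    integral_const_mul, integral_finsetSum _ fun a _ => h a]
  refine add_le_add le_rfl (div_le_div_of_nonneg_right
    (mul_le_mul_of_nonneg_left ?_ (by positivity)) hη.le)
  set u : ℝ := (n : ℝ) / N with hu
  have hu0 : 0 ≤ u := by positivity
  have hB0 : 0 ≤ tail T := integral_nonneg fun _ => sq_nonneg _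
  have hm4 := m₄_nonneg
  have hm6 := m₆_nonneg
  set K := (m₄ + 24300 * (1 + 2 * m₆)) / (N : ℝ) + tail T with hK
  have hK1 : 24300 * (1 + 2 * m₆) / (N : ℝ) + tail T ≤ K := by
    rw [hK]; gcongr; linarith
  have hK2 : m₄ / (N : ℝ) / 2 ≤ Real.exp (2 * A) * K := by
    have h1 : m₄ / (N : ℝ) ≤ K := by
      rw [hK]; refine le_add_of_le_of_nonneg ?_ hB0; gcongr; linarith
    have h0 : 0 ≤ m₄ / (N : ℝ) := by positivity
    calc m₄ / (N : ℝ) / 2 ≤ K := by linarith
      _ ≤ _ := le_mul_of_one_le_left (h0.trans h1) hA2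
  have hs2 : ∑ a : Fin n, ∫ b : Base N L n,
      (24300 / (N : ℝ) * (1 + m₆ + patObs P (fun y => y ^ 6) f s x a b) +
        patObs P (fun y => (y - clampT T y) ^ 2) f s x a b) ∂baseLaw N L n ≤
      (n : ℝ) * (Real.exp (2 * A) * K) :=
    (Finset.sum_le_card_nsmul _ _ _ fun a _ => (hsum a).trans
      (mul_le_mul_of_nonneg_left hK1 (Real.exp_pos _).le)).trans_eq (by simp)
  have hexp : u + u ^ 2 ≤ Real.exp (2 * n / N) := by
    have := Real.quadratic_le_exp_of_nonneg (x := 2 * u) (by positivity)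
    rw [mul_div_assoc, ← hu]
    nlinarith
  calc _ ≤ n * A ^ 2 * m₄ / (2 * N ^ 2) + n * A ^ 2 / N ^ 2 *
        (n * (Real.exp (2 * A) * K)) :=
      add_le_add le_rfl (mul_le_mul_of_nonneg_left hs2 (by positivity))
    _ = u * (A ^ 2 * (m₄ / N / 2)) + u ^ 2 * (A ^ 2 * (Real.exp (2 * A) * K)) := by
      rw [hu]; ring
    _ ≤ u * (A ^ 2 * (Real.exp (2 * A) * K)) + u ^ 2 * (A ^ 2 * (Real.exp (2 * A) * K)) :=
      add_le_add (mul_le_mul_of_nonneg_left (mul_le_mul_of_nonneg_left hK2 (sq_nonneg A)) hu0) le_rfl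
    _ = (u + u ^ 2) * (A ^ 2 * (Real.exp (2 * A) * K)) := by ring
    _ ≤ Real.exp (2 * n / N) * (A ^ 2 * (Real.exp (2 * A) * K)) :=
      mul_le_mul_of_nonneg_right hexp (by
        have : 0 ≤ K := le_trans (by positivity) hK1
        positivity)
    _ = _ := by ring

end Vale.Agent.P157.Parisi.Sphere.Cavity
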