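import Vale.Agent.P157.Parisi.Cavity.Main
import Vale.Agent.P157.Parisi.Sphere.Cavity.Moments

/-!
Module G1 on the sphere: adding one coordinate.
-/

noncomputable section

open MeasureTheory ProbabilityTheory Filter
open scoped BigOperators NNReal Topology

namespace Vale.Agent.P157.Parisi.Sphere.Cavity

open Vale.Agent.P168.Limit (logZ)
open Vale.Agent.P168.Toolkit (integrable_poisson_of_linear integrable_count integral_count)
open Vale.Agent.P157.Parisi.Cavity (Base baseLaw bCav snocPat measurePreserving_grow m₄ m₆ tail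
  m₄_nonneg m₆_nonneg poisson_exp tail_le scale_sq)

variable {N L n R m : ℕ} {f : ℝ → ℝ} {A s T τ : ℝ} {x : Fin L → ℝ} {P : ∀ N, Pts N}

/-- The constant of the comparison. -/
def cmpC (A : ℝ) : ℝ := (A + 1) + 2 * (A + 1) ^ 2

/-- The loss of the coupling that does not depend on the number of patterns. -/
def coupC (N R m : ℕ) (A s τ : ℝ) : ℝ :=
  -Real.log (1 - netTol (N + 1)) - Real.log (1 - gaussC / (τ * Real.sqrt N)) +
    Real.log (1 + netTol N) +
    cmpC A * (4 * s ^ 2 * (3 * (R : ℝ) ^ 2 / (N + 1) + splitErr N R m τ))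

lemma sum_gridW_pos (hm : 0 < m) (hR : 0 < R) (Q : Pts N) :
    0 < ∑ q, gridW (P := Q) (R := R) m q :=
  Finset.sum_pos' (fun _ _ => cellW_nonneg m _)
    ⟨(default, (⟨0, Nat.mul_pos hR hm⟩, true)), Finset.mem_univ _, cellW_zero_pos hm⟩

/-- The sphere of dimension `N + 1` against the grid over the one of dimension `N`. -/
theorem grow_bound (hP : IsNets P) (hN : 0 < N) (hm : 0 < m) (hR : 0 < R) (hf : Smooth f A)
    (hx : ∀ i, x i ∈ Set.Icc (1 : ℝ) 2) (hτ0 : 0 < τ)
    (hτ : τ + ((R : ℝ) ^ 2 + 1) / (N + 1) ≤ 1 / 2) (hR8 : 8 * (R : ℝ) ^ 2 ≤ N + 1)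
    (hg : gaussC / (τ * Real.sqrt N) < 1) :
    (∫ b : PBase (N + 1) N L n, lW (gridW (P := P N) (R := R) m) f s x (gridV m)
        (fun q => unitVec q.1) b ∂pLaw (N + 1) N L n) - Real.log (P N).K -
      (cmpC A * splitErr N R m τ * n + coupC N R m A s τ) ≤
      logZn (P (N + 1)) n f s x - Real.log (P (N + 1)).K := by
  obtain ⟨w, hw0, hwa, hwb, hwc⟩ := exists_split hP hN hm hR hτ0 hτ hR8
  have hN1 : (1 : ℝ) ≤ N := Nat.one_le_cast.2 hN
  have htol : 0 < 1 - netTol (N + 1) := by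
    rw [sub_pos, netTol, div_lt_one (by positivity)]
    exact one_lt_pow₀ (by push_cast; linarith) (by norm_num)
  have htol' : 0 < 1 + netTol N := by unfold netTol; positivity
  have hp : 0 < 1 - gaussC / (τ * Real.sqrt N) := sub_pos.2 hg
  have hK : (0 : ℝ) < (P N).K := Nat.cast_pos.2 (P N).pos
  have hK' : (0 : ℝ) < (P (N + 1)).K := Nat.cast_pos.2 (P (N + 1)).pos
  have hgw := sum_gridW_pos (R := R) hm hR (P N)
  have hwp : 0 < ∑ q, w q := by
    have h := hwb (fun _ _ => 1) (fun _ => measurable_const) fun _ _ => zero_le_one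
    simp only [mul_one] at h
    refine pos_of_mul_pos_right (lt_of_lt_of_le (mul_pos hp (div_pos ?_ hK)) h) htol'.le
    refine hgw.trans_eq ?_
    rw [Fintype.sum_prod_type]; rfl
  set v₁ : Conf (P (N + 1)) × Conf (P N) × Fin (R * m) × Bool → Fin (N + 1) → ℝ := fun q => unitVec q.1
  set v₂ : Conf (P (N + 1)) × Conf (P N) × Fin (R * m) × Bool → Fin (N + 1) → ℝ := fun q => newV (unitVec q.2.1) (spin m q.2.2.1 q.2.2.2)
  set u₂ : Conf (P (N + 1)) × Conf (P N) × Fin (R * m) × Bool → Fin N → ℝ := fun q => unitVec q.2.1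
  have hup : ∀ b : PBase (N + 1) (N + 1) L n, Real.log (1 - netTol (N + 1)) + lW w f s x v₁ v₁ b ≤
      logZ (ham (P := P (N + 1)) f s x b) - Real.log (P (N + 1)).K := by
    intro b
    have hc : Measurable fun v : Fin (N + 1) → ℝ => Real.exp (hv f s x v v b) := by
      have := hf.d0.continuous
      unfold hv pc dot
      fun_prop
    have hS : 0 < ∑ q, w q * Real.exp (hv f s x (v₁ q) (v₁ q) b) := by
      obtain ⟨q, -, hq⟩ := Finset.exists_lt_of_sum_lt (s := Finset.univ) (f := fun _ : Conf (P (N + 1)) × Conf (P N) × Fin (R * m) × Bool => (0 : ℝ))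
        (g := w) (by simpa using hwp)
      exact Finset.sum_pos' (fun r _ => mul_nonneg (hw0 r) (Real.exp_pos _).le)
        ⟨q, Finset.mem_univ _, mul_pos hq (Real.exp_pos _)⟩
    have h := hwa _ hc fun _ => (Real.exp_pos _).le
    have h2 := Real.log_le_log (mul_pos htol hS) h
    rw [Real.log_mul htol.ne' hS.ne', Real.log_div (Finset.sum_pos (fun σ _ => Real.exp_pos _)
      Finset.univ_nonempty).ne' hK'.ne'] at h2
    refine h2.trans_eq ?_
    simp only [logZ, ham, patH, fld, pertH_eq, hv]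
  have hdown : ∀ b : PBase (N + 1) N L n,
      lW (gridW (P := P N) (R := R) m) f s x (gridV m) (fun q => unitVec q.1) b +
        (Real.log (1 - gaussC / (τ * Real.sqrt N)) - Real.log (P N).K) ≤
      lW w f s x v₂ u₂ b + Real.log (1 + netTol N) := by
    intro b
    have hc : ∀ p : Fin (R * m) × Bool, Measurable fun u : Fin N → ℝ =>
        Real.exp (hv f s x (newV u (spin m p.1 p.2)) u b) := by
      intro p
      have := hf.d0.continuous
      have hn : Continuous fun u : Fin N → ℝ => newV u (spin m p.1 p.2) := by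
        refine continuous_pi fun i => ?_
        induction i using Fin.lastCases with
        | last => simp only [newV, Fin.snoc_last]; fun_prop
        | cast i => simp only [newV, Fin.snoc_castSucc]; fun_prop
      unfold hv pc dot
      fun_prop
    have h := hwb (fun u p => Real.exp (hv f s x (newV u (spin m p.1 p.2)) u b)) hc
      fun _ _ => (Real.exp_pos _).le
    set G := ∑ q, gridW (P := P N) (R := R) m q *
      Real.exp (hv f s x (gridV m q) (unitVec q.1) b) with hG
    have hG0 : 0 < G := by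
      obtain ⟨q, -, hq⟩ := Finset.exists_lt_of_sum_lt (s := Finset.univ)
        (f := fun _ : Conf (P N) × Fin (R * m) × Bool => (0 : ℝ))
        (g := gridW (P := P N) (R := R) m) (by simpa using hgw)
      exact Finset.sum_pos' (fun r _ => mul_nonneg (cellW_nonneg m _) (Real.exp_pos _).le)
        ⟨q, Finset.mem_univ _, mul_pos hq (Real.exp_pos _)⟩
    have hGe : ∑ σ : Conf (P N), ∑ p : Fin (R * m) × Bool,
        cellW m p.1 * Real.exp (hv f s x (newV (unitVec σ) (spin m p.1 p.2)) (unitVec σ) b) = G := by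
      rw [hG, Fintype.sum_prod_type]; rfl
    rw [hGe] at h
    have hpos := mul_pos hp (div_pos hG0 hK)
    have h2 := Real.log_le_log hpos h
    rw [Real.log_mul hp.ne' (div_pos hG0 hK).ne', Real.log_div hG0.ne' hK.ne',
      Real.log_mul htol'.ne' (pos_of_mul_pos_right (hpos.trans_le h) htol'.le).ne'] at h2
    simp only [lW, ← hG]
    linarith
  have hB : ∀ q : Conf (P (N + 1)) × Conf (P N) × Fin (R * m) × Bool, |spin m q.2.2.1 q.2.2.2| ≤ R := fun q => abs_spin_le hm q.2.2
  have hcmp := abs_le.1 (sys_compare (n := n) hf hw0 hwp v₁ v₁ v₂ u₂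
    (δ := splitErr N R m τ)
    (δ' := 4 * s ^ 2 * (3 * (R : ℝ) ^ 2 / (N + 1) + splitErr N R m τ))
    (fun q r hq hr => hwc q r hq hr) fun q r hq hr =>
      pcov_close hx (dot_self_unit N.succ_pos _) (dot_self_unit N.succ_pos _) (dot_self_unit hN _)
        (dot_self_unit hN _) ((abs_sub_le _ (dot (v₂ q) (v₂ r)) _).trans (add_le_add
          (by
            rw [abs_sub_comm]
            exact dot_newV_close (dot_self_unit hN _) (dot_self_unit hN _) (hB q) (hB r)
              (by linarith [sq_nonneg (R : ℝ)]))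
          (hwc q r hq hr))))
  have i1 := integrable_lW (n := n) (s := s) (x := x) hf hw0 hwp v₁ v₁
  have i2 := integrable_lW (n := n) (s := s) (x := x) hf hw0 hwp v₂ u₂
  have ig : Integrable (fun b : PBase (N + 1) N L n => lW (gridW (P := P N) (R := R) m) f s x
      (gridV m) (fun q => unitVec q.1) b) (pLaw (N + 1) N L n) :=
    integrable_lW hf (fun q => cellW_nonneg m _) hgw (gridV m) fun q => unitVec q.1
  have iH : Integrable (fun b : PBase (N + 1) (N + 1) L n => logZ (ham (P := P (N + 1)) f s x b))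
      (pLaw (N + 1) (N + 1) L n) := integrable_logZ_ham hf
  have h1 := integral_mono ((integrable_const (Real.log (1 - netTol (N + 1)))).add i1)
    (iH.sub (integrable_const (Real.log (P (N + 1)).K))) hup
  have h2 := integral_mono (ig.add (integrable_const (Real.log (1 - gaussC / (τ * Real.sqrt N)) -
    Real.log (P N).K))) (i2.add (integrable_const (Real.log (1 + netTol N)))) hdown
  simp only [Pi.add_apply, Pi.sub_apply] at h1 h2
  rw [integral_add (integrable_const _) i1, integral_sub iH (integrable_const _)] at h1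
  rw [integral_add ig (integrable_const _), integral_add i2 (integrable_const _)] at h2
  simp only [integral_const, probReal_univ, one_smul] at h1 h2
  have hz : ∫ b : PBase (N + 1) (N + 1) L n, logZ (ham (P := P (N + 1)) f s x b)
      ∂pLaw (N + 1) (N + 1) L n = logZn (P (N + 1)) n f s x := rfl
  rw [hz] at h1
  rw [coupC, cmpC]
  linarith [hcmp.2]

/-- The constant of the grid. -/
def gridK (R m : ℕ) : ℝ := ((R * m : ℕ) : ℝ) / (2 * cellW m 0)

/-- The size of the error functional. -/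
def errC (N R : ℕ) (A T η : ℝ) : ℝ :=
  η + 4 * (R : ℝ) ^ 12 * (Real.exp (2 * A) * A ^ 2) *
    ((m₄ + 24300 * (1 + 2 * m₆)) / N + tail T) / η

/-- The step at a given number of patterns. -/
theorem site_bound (hP : IsNets P) (hN : 0 < N) (hm : 0 < m) (hR : 0 < R) (hf : Smooth f A)
    (hT : 0 ≤ T) {η : ℝ} (hη : 0 < η) (hx : ∀ i, x i ∈ Set.Icc (1 : ℝ) 2) (hτ0 : 0 < τ)
    (hτ : τ + ((R : ℝ) ^ 2 + 1) / (N + 1) ≤ 1 / 2) (hR8 : 8 * (R : ℝ) ^ 2 ≤ N + 1)
    (hg : gaussC / (τ * Real.sqrt N) < 1) :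
    (∫ b : Base N L n, cavMean (P N) f R m T s x b ∂baseLaw N L n) -
        (gridK R m * Real.exp (((R : ℝ) ^ 2 * (A + T * A + 2 * A ^ 2) + 2) / N * n) * errC N R A T η +
          (cmpC A * splitErr N R m τ * n + coupC N R m A s τ)) ≤
      (logZn (P (N + 1)) n f s x - Real.log (P (N + 1)).K) -
        (logZn (P N) n f s x - Real.log (P N).K) := by
  set ν := (baseLaw N L n).prod (gam (Fin n))
  have hA := (abs_nonneg _).trans (hf.b0 0)
  have hRN : (R : ℝ) ^ 2 ≤ N + 1 := by linarith [sq_nonneg (R : ℝ)]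
  have hgrid : Integrable (fun b : PBase (N + 1) N L n => lW (gridW (P := P N) (R := R) m) f s x
      (gridV m) (fun q => unitVec q.1) b) (pLaw (N + 1) N L n) :=
    integrable_lW hf (fun q => cellW_nonneg m _) (sum_gridW_pos (R := R) hm hR (P N)) (gridV m)
      fun q => unitVec q.1
  have hmp : MeasurePreserving (fun p : Base N L n × (Fin n → ℝ) =>
      ((snocPat p.1.1 p.2, p.1.2) : PBase (N + 1) N L n)) ν (pLaw (N + 1) N L n) :=
    measurePreserving_grow N L n
  have hS := hmp.integrable_comp_of_integrable hgrid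
  have hH : Integrable (fun p : Base N L n × (Fin n → ℝ) =>
      logZ (ham (P := P N) f s x p.1)) ν := (integrable_logZ_ham hf).comp_fst _
  have hC : Integrable (fun p : Base N L n × (Fin n → ℝ) => cavInt (P N) f R m T s x p.1 p.2) ν :=
    (((integrable_const (gridC R m + (R : ℝ) ^ 2 * ((n : ℝ) * bCav A T N))).add
      ((integrable_coordAbs).const_mul ((R : ℝ) * A))).comp_snd _).mono'
      (measurable_cavInt hf).aestronglyMeasurable
      (ae_of_all _ fun p => abs_cavInt_le hN hm hR hf hT p.1 p.2)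
  obtain ⟨hE, hEb⟩ := errF_total (P := P N) (n := n) (s := s) (x := x) hN hR hf hT hη
  set E := Real.exp ((R : ℝ) ^ 2 * ((n : ℝ) * bCav A T N)) with hEdef
  have h := integral_mono (hC.sub (hE.const_mul (((R * m : ℕ) : ℝ) * E / (2 * cellW m 0))))
    (hS.sub hH)
    fun p : Base N L n × (Fin n → ℝ) => site_pointwise hN hm hR hRN hf hT hη p.1 p.2
  simp only [Pi.sub_apply] at h
  rw [integral_sub hC (hE.const_mul _), integral_const_mul, integral_sub hS hH] at h
  have hCm : ∫ p, cavInt (P N) f R m T s x p.1 p.2 ∂ν =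
      ∫ b, cavMean (P N) f R m T s x b ∂baseLaw N L n := integral_prod _ hC
  have hHm : ∫ p, logZ (ham (P := P N) f s x p.1) ∂ν = logZn (P N) n f s x :=
    (integral_fun_fst fun b => logZ (ham (P := P N) f s x b)).trans (by simp [logZn])
  have hSm : ∫ p, ((fun b : PBase (N + 1) N L n => lW (gridW (P := P N) (R := R) m) f s x (gridV m)
      (fun q => unitVec q.1) b) ∘ fun p : Base N L n × (Fin n → ℝ) => (snocPat p.1.1 p.2, p.1.2)) p
        ∂ν = ∫ b, lW (gridW (P := P N) (R := R) m) f s x (gridV m) (fun q => unitVec q.1) b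
          ∂pLaw (N + 1) N L n := by
    rw [← hmp.map_eq, integral_map hmp.measurable.aemeasurable
      (by rw [hmp.map_eq]; exact hgrid.aestronglyMeasurable)]
    rfl
  rw [hCm, hHm, hSm] at h
  have hgb := grow_bound (n := n) (s := s) hP hN hm hR hf hx hτ0 hτ hR8 hg
  have hgK : 0 ≤ gridK R m := by
    unfold gridK; have := cellW_nonneg m 0; positivity
  set c := ((R : ℝ) ^ 2 * (A + T * A + 2 * A ^ 2) + 2) / N * n with hc
  set Q := Real.exp (2 * A) * A ^ 2 * ((m₄ + 24300 * (1 + 2 * m₆)) / N + tail T) with hQ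
  have hQ0 : 0 ≤ Q := by
    have := m₄_nonneg; have := m₆_nonneg
    have : 0 ≤ tail T := integral_nonneg fun _ => sq_nonneg _
    positivity
  have hb : (R : ℝ) ^ 2 * ((n : ℝ) * bCav A T N) =
      (R : ℝ) ^ 2 * (A + T * A) / 2 / N * n := by rw [bCav]; ring
  have hTA : 0 ≤ (R : ℝ) ^ 2 * (A + T * A) := by positivity
  have hRA : 0 ≤ (R : ℝ) ^ 2 * A ^ 2 := by positivity
  have e1 : E * Real.exp (2 * n * ((R : ℝ) ^ 2 * A ^ 2) / N) ≤ Real.exp c := by
    rw [hEdef, ← Real.exp_add, Real.exp_le_exp, hb, hc,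
      show (R : ℝ) ^ 2 * (A + T * A) / 2 / N * n + 2 * n * ((R : ℝ) ^ 2 * A ^ 2) / N =
        ((R : ℝ) ^ 2 * (A + T * A) / 2 + 2 * ((R : ℝ) ^ 2 * A ^ 2)) / N * n by ring]
    gcongr ?_ / _ * _
    linarith
  have e2 : E * Real.exp (2 * n / N) ≤ Real.exp c := by
    rw [hEdef, ← Real.exp_add, Real.exp_le_exp, hb, hc,
      show (R : ℝ) ^ 2 * (A + T * A) / 2 / N * n + 2 * n / N =
        ((R : ℝ) ^ 2 * (A + T * A) / 2 + 2) / N * n by ring]
    gcongr ?_ / _ * _
    linarith
  have hpos : 0 ≤ ((R * m : ℕ) : ℝ) * E / (2 * cellW m 0) := by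
    have := cellW_nonneg m 0; positivity
  have herr : ((R * m : ℕ) : ℝ) * E / (2 * cellW m 0) *
      (∫ p, errF (P N) f A T η R s x p.1 p.2 ∂ν) ≤ gridK R m * Real.exp c * errC N R A T η := by
    refine (mul_le_mul_of_nonneg_left hEb hpos).trans ?_
    calc ((R * m : ℕ) : ℝ) * E / (2 * cellW m 0) *
          (η * Real.exp (2 * n * ((R : ℝ) ^ 2 * A ^ 2) / N) +
            4 * (R : ℝ) ^ 12 * (Real.exp (2 * A) * A ^ 2 * Real.exp (2 * n / N) *
              ((m₄ + 24300 * (1 + 2 * m₆)) / N + tail T)) / η)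
        = gridK R m * (E * Real.exp (2 * n * ((R : ℝ) ^ 2 * A ^ 2) / N) * η +
            E * Real.exp (2 * n / N) * (4 * (R : ℝ) ^ 12 * Q / η)) := by
          rw [gridK, hQ]; ring
      _ ≤ gridK R m * (Real.exp c * η + Real.exp c * (4 * (R : ℝ) ^ 12 * Q / η)) :=
          mul_le_mul_of_nonneg_left (add_le_add (mul_le_mul_of_nonneg_right e1 hη.le)
            (mul_le_mul_of_nonneg_right e2 (by positivity))) hgK
      _ = _ := by rw [errC, hQ]; ring
  linarith

/-- The step averaged over the number of patterns. -/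
theorem site_step (hP : IsNets P) (hN : 0 < N) (hm : 0 < m) (hR : 0 < R) (hf : Smooth f A)
    (hT : 0 ≤ T) {η : ℝ} (hη : 0 < η) (hx : ∀ i, x i ∈ Set.Icc (1 : ℝ) 2) (hτ0 : 0 < τ)
    (hτ : τ + ((R : ℝ) ^ 2 + 1) / (N + 1) ≤ 1 / 2) (hR8 : 8 * (R : ℝ) ^ 2 ≤ N + 1)
    (hg : gaussC / (τ * Real.sqrt N) < 1) (μ : ℝ) :
    cavVal (P N) f R m T s x μ -
        (gridK R m * Real.exp (μ.toNNReal *
            (Real.exp (((R : ℝ) ^ 2 * (A + T * A + 2 * A ^ 2) + 2) / N) - 1)) * errC N R A T η +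
          (cmpC A * splitErr N R m τ * μ.toNNReal + coupC N R m A s τ)) ≤
      logPartS (P (N + 1)) f s x μ - logPartS (P N) f s x μ := by
  set c := ((R : ℝ) ^ 2 * (A + T * A + 2 * A ^ 2) + 2) / (N : ℝ)
  rw [cavVal_eq hN hm hR hf hT, logPartS_eq hf, logPartS_eq hf]
  obtain ⟨he, hev⟩ := poisson_exp μ.toNNReal c
  have hn := fun n : ℕ => site_bound (n := n) (s := s) hP hN hm hR hf hT hη hx hτ0 hτ hR8 hg
  have hi1 : Integrable (fun n => ∫ b : Base N L n, cavMean (P N) f R m T s x b ∂baseLaw N L n)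
      (poissonMeasure μ.toNNReal) := by
    refine integrable_poisson_of_linear _ (A := gridC R m)
      (B := (R : ℝ) ^ 2 * bCav A T N + R * A) fun n => ?_
    refine (abs_integral_le_integral_abs).trans ?_
    have hmm : Integrable (fun b : Base N L n => cavMean (P N) f R m T s x b) (baseLaw N L n) :=
      Integrable.of_bound
        ((measurable_cavInt hf).stronglyMeasurable.integral_prod_right').aestronglyMeasurable
        _ (ae_of_all _ fun b => abs_cavMean_le hN hm hR hf hT b)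
    exact (integral_mono hmm.abs (integrable_const _)
      fun b => abs_cavMean_le hN hm hR hf hT b).trans_eq (by simp)
  have hc' := integrable_count μ.toNNReal
  have hi3 : Integrable (fun n : ℕ => cmpC A * splitErr N R m τ * n + coupC N R m A s τ)
      (poissonMeasure μ.toNNReal) := (hc'.const_mul _).add (integrable_const _)
  have hi4 : Integrable (fun n : ℕ => gridK R m * Real.exp (c * n) * errC N R A T η)
      (poissonMeasure μ.toNNReal) := (he.const_mul _).mul_const _
  have hi2 : Integrable (fun n : ℕ => gridK R m * Real.exp (c * n) * errC N R A T η +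
      (cmpC A * splitErr N R m τ * n + coupC N R m A s τ)) (poissonMeasure μ.toNNReal) := hi4.add hi3
  have j1 := integrable_logZn (P := P (N + 1)) (s := s) N.succ_pos hf hx μ.toNNReal
  have j2 := integrable_logZn (P := P N) (s := s) hN hf hx μ.toNNReal
  have h := integral_mono (hi1.sub hi2) (j1.sub j2) hn
  simp only [Pi.sub_apply] at h
  rw [integral_sub hi1 hi2, integral_sub j1 j2, integral_add hi4 hi3, integral_mul_const,
    integral_const_mul, hev, integral_add (hc'.const_mul _) (integrable_const _),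
    integral_const_mul, integral_count] at h
  simpa using h

lemma budget_eq {G K ε : ℝ} (hG : 0 < G) (hK : 0 < K) (hε : 0 < ε) (a b : ℝ) :
    G * K * (ε / (4 * G * K) + a * b / (ε / (4 * G * K))) =
      ε / 4 + 4 * (a * G ^ 2 * b * K ^ 2) / ε := by
  field_simp

/-- The part of the loss that vanishes. -/
def restC (R m : ℕ) (A β : ℝ) (N : ℕ) : ℝ :=
  -Real.log (1 - netTol (N + 1)) - Real.log (1 - gaussC * (N : ℝ) ^ (-(1 / 4 : ℝ))) +
    Real.log (1 + netTol N) +
    cmpC A * (β * (24 * (R : ℝ) ^ 2 * ((N : ℝ) ^ (-(1 / 4 : ℝ)) + ((R : ℝ) ^ 2 + 1) / (N + 1)) +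
        4 * (N * netTol N)) +
      4 * (N : ℝ) ^ (-(1 / 4 : ℝ)) * (3 * (R : ℝ) ^ 2 +
        (24 * (R : ℝ) ^ 2 * ((N : ℝ) ^ (-(1 / 4 : ℝ)) + ((R : ℝ) ^ 2 + 1) / (N + 1)) +
          12 * R / m + 4 * (N * netTol N))))

lemma tendsto_restC (R m : ℕ) (A β : ℝ) : Tendsto (restC R m A β) atTop (𝓝 0) := by
  have hp : Tendsto (fun N : ℕ => (N : ℝ) ^ (-(1 / 4 : ℝ))) atTop (𝓝 0) :=
    (tendsto_rpow_neg_atTop (by norm_num)).comp tendsto_natCast_atTop_atTop
  have hinv : Tendsto (fun N : ℕ => ((R : ℝ) ^ 2 + 1) / ((N : ℝ) + 1)) atTop (𝓝 0) :=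
    tendsto_const_nhds.div_atTop (tendsto_atTop_add_const_right _ 1 tendsto_natCast_atTop_atTop)
  have h1 : Tendsto (fun N : ℕ => 1 / ((N : ℝ) + 1)) atTop (𝓝 0) :=
    tendsto_one_div_add_atTop_nhds_zero_nat
  have htol : Tendsto netTol atTop (𝓝 0) := by
    have := h1.pow 3
    rw [zero_pow three_ne_zero] at this
    exact this.congr fun N => by rw [netTol, div_pow, one_pow]
  have hNtol : Tendsto (fun N : ℕ => (N : ℝ) * netTol N) atTop (𝓝 0) := by
    refine squeeze_zero (fun N => by unfold netTol; positivity) (fun N => ?_) h1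
    rw [netTol, mul_one_div, div_le_div_iff₀ (by positivity) (by positivity), one_mul]
    nlinarith [show (0 : ℝ) ≤ N from Nat.cast_nonneg N, sq_nonneg (N : ℝ),
      pow_nonneg (Nat.cast_nonneg (α := ℝ) N) 3]
  have l1 : Tendsto (fun N : ℕ => Real.log (1 - netTol (N + 1))) atTop (𝓝 0) := by
    have := ((htol.comp (tendsto_add_atTop_nat 1)).const_sub 1).log (by norm_num)
    simpa using this
  have l2 : Tendsto (fun N : ℕ => Real.log (1 - gaussC * (N : ℝ) ^ (-(1 / 4 : ℝ)))) atTop (𝓝 0) := by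
    have := ((hp.const_mul gaussC).const_sub 1).log (by norm_num)
    simpa using this
  have l3 : Tendsto (fun N : ℕ => Real.log (1 + netTol N)) atTop (𝓝 0) := by
    have := (htol.const_add 1).log (by norm_num)
    simpa using this
  have q := ((hp.add hinv).const_mul (24 * (R : ℝ) ^ 2))
  have q1 := q.add (hNtol.const_mul 4)
  have q2 := (q.add_const (12 * (R : ℝ) / m)).add (hNtol.const_mul 4)
  have := ((l1.neg.sub l2).add l3).add
    (((q1.const_mul β).add ((hp.const_mul 4).mul (q2.const_add (3 * (R : ℝ) ^ 2)))).const_mul (cmpC A))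
  unfold restC
  simpa using this

/-- The loss of the coupling at `τ = N ^ (-1 / 4)`. -/
lemma loss_le (hN : 0 < N) (hf : Smooth f A) {β μ : ℝ} (hμ0 : 0 ≤ μ) (hμ : μ ≤ β * N) :
    cmpC A * splitErr N R m ((N : ℝ) ^ (-(1 / 4 : ℝ))) * μ +
        coupC N R m A (scale N) ((N : ℝ) ^ (-(1 / 4 : ℝ))) ≤
      cmpC A * (β * (12 * R / m)) + restC R m A β N := by
  have hNr : (0 : ℝ) < N := Nat.cast_pos.2 hN
  set τ : ℝ := (N : ℝ) ^ (-(1 / 4 : ℝ)) with hτ
  have hτ0 : 0 < τ := Real.rpow_pos_of_pos hNr _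
  have hA := (abs_nonneg _).trans (hf.b0 0)
  have hB : 0 ≤ cmpC A := by unfold cmpC; positivity
  have hsq : τ * Real.sqrt N = τ⁻¹ := by
    rw [hτ, ← Real.rpow_neg hNr.le, Real.sqrt_eq_rpow, ← Real.rpow_add hNr]
    norm_num
  have hg : gaussC / (τ * Real.sqrt N) = gaussC * τ := by rw [hsq, div_inv_eq_mul]
  have hs2 : scale N ^ 2 = (N : ℝ) * τ := by
    rw [scale_sq, hτ, show (3 / 4 : ℝ) = -(1 / 4) + 1 by norm_num, Real.rpow_add hNr, Real.rpow_one]
    ring
  have htol : netTol (N + 1) ≤ netTol N := by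
    unfold netTol; push_cast; gcongr; linarith
  have hn0 : 0 ≤ netTol N := by unfold netTol; positivity
  set J : ℝ := 24 * (R : ℝ) ^ 2 * (τ + ((R : ℝ) ^ 2 + 1) / (N + 1)) with hJ
  set δ := splitErr N R m τ
  have hδ : (N : ℝ) * δ ≤ J + 12 * R / m + 4 * (N * netTol N) := by
    have hJ0 : 0 ≤ J + 12 * R / m := by positivity
    have e : δ = (J + 12 * R / m) / (N + 1) + (2 * netTol N + 2 * netTol (N + 1)) := by
      simp only [δ, splitErr, hJ]; ring
    rw [e, mul_add, mul_div_assoc']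
    refine add_le_add ((div_le_iff₀ (by positivity)).2 ?_) ?_
    · rw [mul_comm]; exact mul_le_mul_of_nonneg_left (by linarith) hJ0
    · calc (N : ℝ) * (2 * netTol N + 2 * netTol (N + 1)) ≤ N * (4 * netTol N) :=
            mul_le_mul_of_nonneg_left (by linarith) hNr.le
        _ = _ := by ring
  have hδ0 : 0 ≤ δ := by
    have : 0 ≤ netTol (N + 1) := by unfold netTol; positivity
    simp only [δ, splitErr]; positivity
  have hμδ : δ * μ ≤ β * (J + 12 * R / m + 4 * (N * netTol N)) := by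
    have hβ : 0 ≤ β := nonneg_of_mul_nonneg_left (hμ0.trans hμ) hNr
    calc δ * μ ≤ δ * (β * N) := mul_le_mul_of_nonneg_left hμ hδ0
      _ = β * (N * δ) := by ring
      _ ≤ _ := mul_le_mul_of_nonneg_left hδ hβ
  have hsδ : 4 * scale N ^ 2 * (3 * (R : ℝ) ^ 2 / (N + 1) + δ) ≤
      4 * τ * (3 * (R : ℝ) ^ 2 + (J + 12 * R / m + 4 * (N * netTol N))) := by
    rw [hs2, show 4 * ((N : ℝ) * τ) * (3 * (R : ℝ) ^ 2 / (N + 1) + δ) =
      4 * τ * ((N : ℝ) * (3 * (R : ℝ) ^ 2 / (N + 1)) + N * δ) by ring]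
    refine mul_le_mul_of_nonneg_left (add_le_add ?_ hδ) (by positivity)
    rw [mul_div_assoc', div_le_iff₀ (by positivity), mul_comm]
    exact mul_le_mul_of_nonneg_left (by linarith) (by positivity)
  have h1 := mul_le_mul_of_nonneg_left (add_le_add hμδ hsδ) hB
  rw [coupC, restC, hg, ← hτ, ← hJ]
  linarith

end Cavity

open Vale.Agent.P157.Parisi.Sphere.Cavity in
open Vale.Agent.P157.Parisi.Cavity (m₄ m₆ tail m₄_nonneg m₆_nonneg tail_le) in
/-- Module G1. -/
theorem cavityS : CavityS := by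
  intro α A C f hα hf P hP ε hε R hR
  have hA := (abs_nonneg _).trans (hf.b0 0)
  have hB : 0 ≤ cmpC A := by unfold cmpC; positivity
  set β : ℝ := α + |C| with hβ
  have hβ0 : 0 ≤ β := add_nonneg hα.le (abs_nonneg C)
  obtain ⟨m₁, hm₁⟩ := exists_nat_gt (cmpC A * β * (12 * R) * 4 / ε)
  refine ⟨m₁ + 1, fun m hm => ?_⟩
  have hm0 : 0 < m := by omega
  have hmr : (0 : ℝ) < m := Nat.cast_pos.2 hm0
  have hmesh : cmpC A * (β * (12 * R / m)) ≤ ε / 4 := by
    rw [mul_div_assoc', mul_div_assoc', div_le_iff₀ hmr]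
    have h : (m₁ : ℝ) ≤ m := Nat.cast_le.2 (by omega)
    rw [div_lt_iff₀ hε] at hm₁
    nlinarith [mul_le_mul_of_nonneg_right h hε.le]
  set G := gridK R m with hG
  have hG0 : 0 < G := by
    rw [hG, gridK]
    exact div_pos (Nat.cast_pos.2 (Nat.mul_pos hR hm0)) (mul_pos two_pos (cellW_zero_pos hm0))
  set a₁ : ℝ := 2 * β * (R : ℝ) ^ 2 * A with ha₁
  set a₀ : ℝ := 2 * β * ((R : ℝ) ^ 2 * (A + 2 * A ^ 2) + 2) with ha₀
  set k : ℝ := 2 * a₁ + 1 with hk
  have hk0 : 0 ≤ k := by positivity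
  set Kc : ℝ := 4 * (R : ℝ) ^ 12 * (Real.exp (2 * A) * A ^ 2) * G ^ 2 with hKc
  set I : ℝ := ∫ y, Real.exp ((k + 1) * |y|) ∂gaussianReal 0 1 with hI
  have hlim : Tendsto (fun T : ℝ => Kc * (2 * I * Real.exp (2 * a₀)) * Real.exp (-T)) atTop (𝓝 0) := by
    simpa using Real.tendsto_exp_neg_atTop_nhds_zero.const_mul _
  obtain ⟨T₁, hT₁⟩ := eventually_atTop.1 (hlim.eventually (eventually_le_nhds
    (show (0 : ℝ) < ε ^ 2 / 64 by positivity)))
  refine ⟨max T₁ 0, fun T hT => ?_⟩
  have hT0 : 0 ≤ T := le_of_max_le_right hT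
  set c : ℝ := (R : ℝ) ^ 2 * (A + T * A + 2 * A ^ 2) + 2 with hc
  set K : ℝ := Real.exp (a₁ * T + a₀) with hK
  have hK0 : 0 < K := Real.exp_pos _
  have hTK : Kc * tail T * K ^ 2 ≤ ε ^ 2 / 64 := by
    refine le_trans ?_ (hT₁ T (le_of_max_le_left hT))
    have h : tail T * K ^ 2 ≤ 2 * Real.exp (-k * T) * I * K ^ 2 :=
      mul_le_mul_of_nonneg_right (tail_le hT0 hk0) (sq_nonneg K)
    have e : Real.exp (-k * T) * K ^ 2 = Real.exp (2 * a₀) * Real.exp (-T) := by
      rw [hK, ← Real.exp_nat_mul, ← Real.exp_add, ← Real.exp_add, hk]; push_cast; ring_nf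
    calc Kc * tail T * K ^ 2 = Kc * (tail T * K ^ 2) := mul_assoc _ _ _
      _ ≤ Kc * (2 * Real.exp (-k * T) * I * K ^ 2) :=
        mul_le_mul_of_nonneg_left h (by positivity)
      _ = Kc * (2 * I * (Real.exp (-k * T) * K ^ 2)) := by ring
      _ = _ := by rw [e]; ring
  set M : ℝ := Kc * (m₄ + 24300 * (1 + 2 * m₆)) * K ^ 2 with hM
  have hp : Tendsto (fun N : ℕ => (N : ℝ) ^ (-(1 / 4 : ℝ))) atTop (𝓝 0) :=
    (tendsto_rpow_neg_atTop (by norm_num)).comp tendsto_natCast_atTop_atTop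
  have hinv : Tendsto (fun N : ℕ => ((R : ℝ) ^ 2 + 1) / ((N : ℝ) + 1)) atTop (𝓝 0) :=
    tendsto_const_nhds.div_atTop (tendsto_atTop_add_const_right _ 1 tendsto_natCast_atTop_atTop)
  have hev1 : ∀ᶠ N : ℕ in atTop, M / N ≤ ε ^ 2 / 64 :=
    (tendsto_const_div_atTop_nhds_zero_nat M).eventually (eventually_le_nhds (by positivity))
  have hev2 : ∀ᶠ N : ℕ in atTop, restC R m A β N ≤ ε / 8 :=
    (tendsto_restC R m A β).eventually (eventually_le_nhds (by positivity))
  have hev3 : ∀ᶠ N : ℕ in atTop, (N : ℝ) ^ (-(1 / 4 : ℝ)) + ((R : ℝ) ^ 2 + 1) / (N + 1) ≤ 1 / 2 := by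
    refine Tendsto.eventually ?_ (eventually_le_nhds (show (0 : ℝ) < 1 / 2 by norm_num))
    simpa using hp.add hinv
  have hev4 : ∀ᶠ N : ℕ in atTop, gaussC * (N : ℝ) ^ (-(1 / 4 : ℝ)) < 1 := by
    refine Tendsto.eventually ?_ (eventually_lt_nhds (show (0 : ℝ) < 1 by norm_num))
    simpa using hp.const_mul gaussC
  filter_upwards [hev1, hev2, hev3, hev4, eventually_gt_atTop 0,
    tendsto_natCast_atTop_atTop.eventually (eventually_ge_atTop c),
    tendsto_natCast_atTop_atTop.eventually (eventually_ge_atTop (8 * (R : ℝ) ^ 2))]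
    with N h1 h2 h3 h4 hN hNc hN8 μ hμ0 hμ x hx
  have hNr : (0 : ℝ) < N := Nat.cast_pos.2 hN
  have hμN : μ ≤ β * N := by
    have := (abs_le.1 hμ).2
    have hN1 : (1 : ℝ) ≤ N := Nat.one_le_cast.2 hN
    rw [hβ, add_mul]
    nlinarith [le_abs_self C, abs_nonneg C]
  set τ : ℝ := (N : ℝ) ^ (-(1 / 4 : ℝ)) with hτ
  have hτ0 : 0 < τ := Real.rpow_pos_of_pos hNr _
  have hsq : τ * Real.sqrt N = τ⁻¹ := by
    rw [hτ, ← Real.rpow_neg hNr.le, Real.sqrt_eq_rpow, ← Real.rpow_add hNr]
    norm_num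
  refine le_trans ?_ (site_step (η := ε / (4 * G * K)) (τ := τ) hP hN hm0 hR hf hT0
    (by positivity) hx hτ0 h3 (by linarith) (by rw [hsq, div_inv_eq_mul]; exact h4) μ)
  have hexp : Real.exp (μ.toNNReal * (Real.exp (c / N) - 1)) ≤ K := by
    rw [hK, Real.exp_le_exp, Real.coe_toNNReal _ hμ0]
    have hc0 : 0 ≤ c := by rw [hc]; positivity
    have h3 : Real.exp (c / N) - 1 ≤ 2 * (c / N) := by
      have hle : |c / N| ≤ 1 := by
        rw [abs_of_nonneg (by positivity)]; exact (div_le_one hNr).2 hNc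
      have := Real.abs_exp_sub_one_le hle
      rw [abs_of_nonneg (show 0 ≤ c / (N : ℝ) by positivity)] at this
      exact (le_abs_self _).trans this
    calc μ * (Real.exp (c / N) - 1) ≤ μ * (2 * (c / N)) := mul_le_mul_of_nonneg_left h3 hμ0
      _ ≤ β * N * (2 * (c / N)) := mul_le_mul_of_nonneg_right hμN (by positivity)
      _ = a₁ * T + a₀ := by rw [ha₁, ha₀, hc]; field_simp; ring
  have hB0 : 0 ≤ tail T := integral_nonneg fun _ => sq_nonneg _
  have hm4 := m₄_nonneg
  have hm6 := m₆_nonneg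
  have herr : G * Real.exp (μ.toNNReal * (Real.exp (c / N) - 1)) *
      errC N R A T (ε / (4 * G * K)) ≤ 3 * ε / 8 := by
    refine (mul_le_mul_of_nonneg_right (mul_le_mul_of_nonneg_left hexp hG0.le)
      (by unfold errC; positivity)).trans ?_
    have e : G * K * errC N R A T (ε / (4 * G * K)) =
        ε / 4 + 4 * (M / N + Kc * tail T * K ^ 2) / ε := by
      rw [errC, budget_eq hG0 hK0 hε, hM, hKc]; ring
    rw [e]
    have : 4 * (M / N + Kc * tail T * K ^ 2) / ε ≤ ε / 8 := by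
      rw [div_le_iff₀ hε]; nlinarith only [h1, hTK]
    linarith
  have hl := loss_le (R := R) (m := m) hN hf hμ0 hμN
  rw [← hτ] at hl
  rw [Real.coe_toNNReal _ hμ0] at *
  linarith

end Vale.Agent.P157.Parisi.Sphere
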