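import Vale.Agent.P157.Parisi.Cavity.Pert
import Vale.Agent.P157.Parisi.Sphere.Statements

/-!
The covariance of the perturbation on unit vectors.
-/

noncomputable section

open MeasureTheory ProbabilityTheory
open scoped BigOperators

namespace Vale.Agent.P157.Parisi.Sphere.Cavity

open Vale.Agent.P157.Parisi.Cavity (amp amp_sq_le sum_amp_sq_le sum_half_pow_le)

variable {N M L : ℕ}

/-- The coefficients of the perturbation along a vector. -/
def pc (s : ℝ) (x : Fin L → ℝ) (u : Fin N → ℝ) (c : PertIdx N L) : ℝ :=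
  s * x c.1 * (1 / 2) ^ (c.1.val + 1) * ∏ i, u (c.2 i)

lemma pertH_eq {P : Pts N} (s : ℝ) (x : Fin L → ℝ) (J : PertIdx N L → ℝ) (σ : Conf P) :
    pertH s x J σ = dot J (pc s x (unitVec σ)) := rfl

lemma pcov (s : ℝ) (x : Fin L → ℝ) (u v : Fin N → ℝ) :
    dot (pc s x u) (pc s x v) = ∑ p, amp s x p ^ 2 * dot u v ^ (p.val + 1) := by
  unfold dot
  rw [Fintype.sum_sigma]
  refine Finset.sum_congr rfl fun p _ => ?_
  rw [Fintype.sum_pow, Finset.mul_sum]
  refine Finset.sum_congr rfl fun f _ => ?_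
  simp only [pc, amp, Finset.prod_mul_distrib]
  ring

lemma dot_self_unit {P : Pts N} (hN : 0 < N) (σ : Conf P) : dot (unitVec σ) (unitVec σ) = 1 := by
  simpa [dot, sq, unitVec] using P.norm_one hN σ

lemma abs_dot_le_one {u v : Fin N → ℝ} (hu : dot u u = 1) (hv : dot v v = 1) : |dot u v| ≤ 1 := by
  unfold dot at hu hv ⊢
  refine (Finset.abs_sum_le_sum_abs _ _).trans ?_
  have h : ∑ i, |u i * v i| ≤ ∑ i, (u i * u i + v i * v i) / 2 := Finset.sum_le_sum fun i _ => by
    rw [abs_mul, ← abs_mul_abs_self (u i), ← abs_mul_abs_self (v i)]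
    nlinarith [sq_nonneg (|u i| - |v i|)]
  rw [← Finset.sum_div, Finset.sum_add_distrib, hu, hv] at h
  linarith

/-- Close overlaps give close covariances. -/
lemma pcov_close {s : ℝ} {x : Fin L → ℝ} (hx : ∀ i, x i ∈ Set.Icc (1 : ℝ) 2)
    {u u' : Fin N → ℝ} {v v' : Fin M → ℝ} (hu : dot u u = 1) (hu' : dot u' u' = 1)
    (hv : dot v v = 1) (hv' : dot v' v' = 1) {δ : ℝ} (h : |dot v v' - dot u u'| ≤ δ) :
    |dot (pc s x v) (pc s x v') - dot (pc s x u) (pc s x u')| ≤ 4 * s ^ 2 * δ := by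
  have h0 : 0 ≤ δ := (abs_nonneg _).trans h
  rw [pcov, pcov, ← Finset.sum_sub_distrib]
  refine (Finset.abs_sum_le_sum_abs _ _).trans ?_
  calc ∑ p : Fin L, |amp s x p ^ 2 * dot v v' ^ (p.val + 1) - amp s x p ^ 2 * dot u u' ^ (p.val + 1)|
      ≤ ∑ p : Fin L, 4 * s ^ 2 * δ * (1 / 2) ^ (p.val + 1) := by
        refine Finset.sum_le_sum fun p _ => ?_
        rw [← mul_sub, abs_mul, abs_of_nonneg (sq_nonneg _)]
        have h1 := pow_le_one₀ (n := p.val + 1 - 1)
          ((abs_nonneg (dot v v')).trans (le_max_left _ |dot u u'|))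
          (max_le (abs_dot_le_one hv hv') (abs_dot_le_one hu hu'))
        have h2 : |dot v v' ^ (p.val + 1) - dot u u' ^ (p.val + 1)| ≤ δ * (p.val + 1 : ℕ) :=
          (abs_pow_sub_pow_le ..).trans ((mul_le_of_le_one_right (by positivity) h1).trans
            (mul_le_mul_of_nonneg_right h (by positivity)))
        have h3 : ((p.val + 1 : ℕ) : ℝ) ≤ 2 ^ (p.val + 1) := by
          exact_mod_cast (Nat.lt_two_pow_self (n := p.val + 1)).le
        refine (mul_le_mul (amp_sq_le hx p) (h2.trans (mul_le_mul_of_nonneg_left h3 h0))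
          (abs_nonneg _) (by positivity)).trans_eq ?_
        rw [show (1 / 4 : ℝ) = 1 / 2 * (1 / 2) by norm_num, mul_pow, ← mul_assoc]
        have e : (1 / 2 : ℝ) ^ (p.val + 1) * 2 ^ (p.val + 1) = 1 := by
          rw [← mul_pow]; norm_num
        linear_combination (4 * s ^ 2 * δ * (1 / 2 : ℝ) ^ (p.val + 1)) * e
    _ ≤ _ := by
        rw [← Finset.mul_sum]
        exact mul_le_of_le_one_right (by positivity) (sum_half_pow_le L)

end Vale.Agent.P157.Parisi.Sphere.Cavity
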