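import Vale.Agent.P157.Parisi.Sphere.Cavity.Interp
import Vale.Agent.P157.Parisi.Sphere.Cavity.Pert
import Vale.Agent.P157.Parisi.Cavity.Finite

/-!
`E log` of weighted sums over configurations given by two vectors, one read by the patterns and
one by the perturbation; comparison of two such systems through their overlaps.
-/

noncomputable section

open MeasureTheory ProbabilityTheory
open scoped BigOperators

namespace Vale.Agent.P157.Parisi.Sphere.Cavity

open Vale.Agent.P157.Parisi.Cavity (jBound integrable_jBound)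

variable {M M' L n : ℕ} {X : Type*} [Fintype X] {f : ℝ → ℝ} {A s : ℝ} {x : Fin L → ℝ}

/-- `n` patterns and a perturbation in possibly different dimensions. -/
abbrev PBase (M M' L n : ℕ) := (Fin n → Fin M → ℝ) × (PertIdx M' L → ℝ)

/-- Their law. -/
def pLaw (M M' L n : ℕ) : Measure (PBase M M' L n) :=
  (Measure.pi fun _ : Fin n => gam (Fin M)).prod (gam (PertIdx M' L))

instance : IsProbabilityMeasure (pLaw M M' L n) := by unfold pLaw; infer_instance

/-- The Hamiltonian of a pair of vectors. -/
def hv (f : ℝ → ℝ) (s : ℝ) (x : Fin L → ℝ) (v : Fin M → ℝ) (u : Fin M' → ℝ)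
    (b : PBase M M' L n) : ℝ :=
  ∑ a, f (dot (b.1 a) v) + dot b.2 (pc s x u)

/-- The weighted log partition function. -/
def lW (w : X → ℝ) (f : ℝ → ℝ) (s : ℝ) (x : Fin L → ℝ) (v : X → Fin M → ℝ)
    (u : X → Fin M' → ℝ) (b : PBase M M' L n) : ℝ :=
  Real.log (∑ q, w q * Real.exp (hv f s x (v q) (u q) b))

lemma measurable_hv (hf : Smooth f A) (v : Fin M → ℝ) (u : Fin M' → ℝ) :
    Measurable fun b : PBase M M' L n => hv f s x v u b := by
  have := hf.d0.continuous
  unfold hv dot
  fun_prop

lemma measurable_lW (hf : Smooth f A) (w : X → ℝ) (v : X → Fin M → ℝ) (u : X → Fin M' → ℝ) :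
    Measurable fun b : PBase M M' L n => lW w f s x v u b :=
  Real.measurable_log.comp (Finset.measurable_sum _ fun q _ =>
    (measurable_hv hf (v q) (u q)).exp.const_mul (w q))

/-- The coefficient sums of the perturbation. -/
def pcSum (s : ℝ) (x : Fin L → ℝ) (u : X → Fin M' → ℝ) (c : PertIdx M' L) : ℝ :=
  ∑ q, |pc s x (u q) c|

lemma abs_hv_le (hf : Smooth f A) (v : X → Fin M → ℝ) (u : X → Fin M' → ℝ) (q : X)
    (b : PBase M M' L n) : |hv f s x (v q) (u q) b| ≤ n * A + jBound (pcSum s x u) b.2 := by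
  refine (abs_add_le _ _).trans (add_le_add ?_ ?_)
  · exact (Finset.abs_sum_le_sum_abs _ _).trans
      ((Finset.sum_le_card_nsmul _ _ A fun _ _ => hf.b0 _).trans_eq (by simp))
  · refine (Finset.abs_sum_le_sum_abs _ _).trans (Finset.sum_le_sum fun c _ => ?_)
    rw [abs_mul, mul_comm]
    exact mul_le_mul_of_nonneg_right (Finset.single_le_sum (f := fun q => |pc s x (u q) c|)
      (fun q _ => abs_nonneg _) (Finset.mem_univ q)) (abs_nonneg _)

lemma abs_lW_le (hf : Smooth f A) {w : X → ℝ} (hw : ∀ q, 0 ≤ w q) (hp : 0 < ∑ q, w q)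
    (v : X → Fin M → ℝ) (u : X → Fin M' → ℝ) (b : PBase M M' L n) :
    |lW w f s x v u b - Real.log (∑ q, w q)| ≤ n * A + jBound (pcSum s x u) b.2 := by
  set K := n * A + jBound (pcSum s x u) b.2
  have hlo : (∑ q, w q) * Real.exp (-K) ≤ ∑ q, w q * Real.exp (hv f s x (v q) (u q) b) := by
    rw [Finset.sum_mul]
    exact Finset.sum_le_sum fun q _ => mul_le_mul_of_nonneg_left (Real.exp_le_exp.2
      (abs_le.1 (abs_hv_le hf v u q b)).1) (hw q)
  have hhi : ∑ q, w q * Real.exp (hv f s x (v q) (u q) b) ≤ (∑ q, w q) * Real.exp K := by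
    rw [Finset.sum_mul]
    exact Finset.sum_le_sum fun q _ => mul_le_mul_of_nonneg_left (Real.exp_le_exp.2
      (abs_le.1 (abs_hv_le hf v u q b)).2) (hw q)
  have h1 := Real.log_le_log (mul_pos hp (Real.exp_pos _)) hlo
  have h2 := Real.log_le_log (lt_of_lt_of_le (mul_pos hp (Real.exp_pos _)) hlo) hhi
  rw [Real.log_mul hp.ne' (Real.exp_pos _).ne', Real.log_exp] at h1 h2
  rw [lW, abs_le]
  constructor <;> linarith

lemma integrable_lW (hf : Smooth f A) {w : X → ℝ} (hw : ∀ q, 0 ≤ w q) (hp : 0 < ∑ q, w q)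
    (v : X → Fin M → ℝ) (u : X → Fin M' → ℝ) :
    Integrable (fun b : PBase M M' L n => lW w f s x v u b) (pLaw M M' L n) := by
  refine ((integrable_const (|Real.log (∑ q, w q)| + n * A)).add
    ((integrable_jBound (pcSum s x u)).comp_snd _)).mono'
      (measurable_lW hf w v u).aestronglyMeasurable (ae_of_all _ fun b => ?_)
  have h := abs_lW_le (s := s) (x := x) hf hw hp v u b
  rw [Real.norm_eq_abs, Pi.add_apply]
  linarith [abs_sub_abs_le_abs_sub (lW w f s x v u b) (Real.log (∑ q, w q))]

/-- All coordinates of patterns and perturbation. -/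
abbrev Coord (M M' L n : ℕ) := (Fin n × Fin M) ⊕ PertIdx M' L

/-- Coordinates into patterns and perturbation. -/
def unflat (g : Coord M M' L n → ℝ) : PBase M M' L n :=
  (fun a i => g (.inl (a, i)), fun c => g (.inr c))

lemma measurePreserving_unflat :
    MeasurePreserving (unflat (M := M) (M' := M') (L := L) (n := n)) (gam (Coord M M' L n))
      (pLaw M M' L n) := by
  have h1 : MeasurePreserving (MeasurableEquiv.curry (Fin n) (Fin M) ℝ)
      (gam (Fin n × Fin M)) (Measure.pi fun _ : Fin n => gam (Fin M)) := by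
    refine ⟨MeasurableEquiv.measurable _, ?_⟩
    simp only [← Measure.infinitePi_eq_pi]
    exact Measure.infinitePi_map_curry fun _ _ => gaussianReal 0 1
  exact (h1.prod (MeasurePreserving.id _)).comp
    (measurePreserving_sumPiEquivProdPi fun _ : Coord M M' L n => gaussianReal 0 1)

lemma measurePreserving_inl {ι κ : Type*} [Fintype ι] [Fintype κ] :
    MeasurePreserving (fun (g : ι ⊕ κ → ℝ) i => g (.inl i)) (gam (ι ⊕ κ)) (gam ι) :=
  measurePreserving_fst.comp (measurePreserving_sumPiEquivProdPi fun _ => gaussianReal 0 1)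

lemma measurePreserving_inr {ι κ : Type*} [Fintype ι] [Fintype κ] :
    MeasurePreserving (fun (g : ι ⊕ κ → ℝ) i => g (.inr i)) (gam (ι ⊕ κ)) (gam κ) :=
  measurePreserving_snd.comp (measurePreserving_sumPiEquivProdPi fun _ => gaussianReal 0 1)

/-- The exponents. -/
def expo (g : ℝ → ℝ) (c : ℝ → ℝ) : Option (Fin n) → ℝ → ℝ
  | some _ => g
  | none => c

/-- The vectors of the blocks. -/
def cvec (s : ℝ) (x : Fin L → ℝ) (v : Fin M → ℝ) (u : Fin M' → ℝ) :
    Option (Fin n) → Coord M M' L n → ℝ
  | some a => Sum.elim (fun p => if p.1 = a then v p.2 else 0) 0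
  | none => Sum.elim 0 (pc s x u)

lemma dot_cvec (g : Coord M M' L n → ℝ) (v : Fin M → ℝ) (u : Fin M' → ℝ) :
    (∀ a, dot g (cvec s x v u (some a)) = dot ((unflat g).1 a) v) ∧
      dot g (cvec s x v u none) = dot (unflat g).2 (pc s x u) := by
  constructor
  · intro a
    simp [dot, cvec, unflat, Fintype.sum_sum_type, Fintype.sum_prod_type, mul_ite]
  · simp [dot, cvec, unflat, Fintype.sum_sum_type]

lemma dot_cvec_cvec (v v' : Fin M → ℝ) (u u' : Fin M' → ℝ) (i j : Option (Fin n)) :
    dot (cvec s x v u i) (cvec s x v' u' j) =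
      if i = j then (match i with | some _ => dot v v' | none => dot (pc s x u) (pc s x u')) else 0 := by
  rcases i with _ | a <;> rcases j with _ | b <;>
    simp [dot, cvec, Fintype.sum_sum_type, Fintype.sum_prod_type, mul_ite, ite_mul, eq_comm]

/-- Systems with close overlaps have close mean log partition functions. -/
theorem sys_compare {M₁ M₁' M₂ M₂' : ℕ} (hf : Smooth f A) {w : X → ℝ} (hw : ∀ q, 0 ≤ w q)
    (hp : 0 < ∑ q, w q) (v : X → Fin M₁ → ℝ) (u : X → Fin M₁' → ℝ) (v' : X → Fin M₂ → ℝ)
    (u' : X → Fin M₂' → ℝ) {δ δ' : ℝ}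
    (h : ∀ q r, w q ≠ 0 → w r ≠ 0 → |dot (v' q) (v' r) - dot (v q) (v r)| ≤ δ)
    (h' : ∀ q r, w q ≠ 0 → w r ≠ 0 →
      |dot (pc s x (u' q)) (pc s x (u' r)) - dot (pc s x (u q)) (pc s x (u r))| ≤ δ') :
    |∫ b, lW w f s x v' u' b ∂pLaw M₂ M₂' L n - ∫ b, lW w f s x v u b ∂pLaw M₁ M₁' L n| ≤
      ((A + 1) + 2 * (A + 1) ^ 2) * (n * δ + δ') := by
  classical
  have hA : 0 ≤ A := (abs_nonneg _).trans (hf.b0 0)
  let Y := {q : X // w q ≠ 0}
  have hsub : ∀ F : X → ℝ, ∑ q : Y, w q * F q = ∑ q, w q * F q := fun F => by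
    rw [← Finset.sum_subtype (Finset.univ.filter fun q => w q ≠ 0) (fun q => by simp)
      fun q => w q * F q]
    exact Finset.sum_filter_of_ne fun q _ hq hz => hq (by simp [hz])
  have hd : LseData (fun q : Y => w q) (expo (n := n) f id) (expo (deriv f) fun _ => 1)
      (expo (deriv (deriv f)) fun _ => 0) (A + 1) :=
    { nonneg := fun q => hw q
      pos := by
        have := hsub fun _ => 1
        simp only [mul_one] at this
        rw [this]; exact hp
      d1 := fun a y => by cases a <;> [exact hasDerivAt_id y; exact (hf.d0 y).hasDerivAt]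
      d2 := fun a y => by cases a <;> [exact hasDerivAt_const y 1; exact (hf.d1 y).hasDerivAt]
      m2 := fun a => by cases a <;> [exact measurable_const; exact hf.d2.continuous.measurable]
      B0 := by linarith
      b1 := fun a y => by
        cases a <;> simp only [expo, abs_one] <;> linarith [hf.b1 y]
      b2 := fun a y => by
        cases a <;> simp only [expo, abs_zero] <;> linarith [hf.b2 y] }
  set a : Option (Fin n) × Y → Coord M₁ M₁' L n ⊕ Coord M₂ M₂' L n → ℝ :=
    fun t => Sum.elim (cvec s x (v t.2) (u t.2) t.1) 0 with ha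
  set b : Option (Fin n) × Y → Coord M₁ M₁' L n ⊕ Coord M₂ M₂' L n → ℝ :=
    fun t => Sum.elim 0 (cvec s x (v' t.2) (u' t.2) t.1) with hb
  have key := lse_compare hd a b
    (fun t t' => by simp [ha, hb, dot, Fintype.sum_sum_type])
    (fun i => match i with | some _ => δ | none => δ')
    (fun i q r => by
      have e1 : dot (b (i, q)) (b (i, r)) =
          dot (cvec s x (v' q) (u' q) i) (cvec s x (v' r) (u' r) i) := by
        simp [hb, dot, Fintype.sum_sum_type]
      have e2 : dot (a (i, q)) (a (i, r)) =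
          dot (cvec s x (v q) (u q) i) (cvec s x (v r) (u r) i) := by
        simp [ha, dot, Fintype.sum_sum_type]
      rw [e1, e2, dot_cvec_cvec, dot_cvec_cvec, if_pos rfl, if_pos rfl]
      rcases i with _ | k
      · exact h' q r q.2 r.2
      · exact h q r q.2 r.2)
    (fun i j q r hij => by
      have e1 : dot (b (i, q)) (b (j, r)) =
          dot (cvec s x (v' q) (u' q) i) (cvec s x (v' r) (u' r) j) := by
        simp [hb, dot, Fintype.sum_sum_type]
      have e2 : dot (a (i, q)) (a (j, r)) =
          dot (cvec s x (v q) (u q) i) (cvec s x (v r) (u r) j) := by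
        simp [ha, dot, Fintype.sum_sum_type]
      rw [e1, e2, dot_cvec_cvec, dot_cvec_cvec, if_neg hij, if_neg hij])
  have ea : ∫ g, lse (fun q : Y => w q) (expo (n := n) f id) (fun t => dot g (a t))
      ∂gam (Coord M₁ M₁' L n ⊕ Coord M₂ M₂' L n) = ∫ z, lW w f s x v u z ∂pLaw M₁ M₁' L n := by
    have hmp := (measurePreserving_unflat (M := M₁) (M' := M₁') (L := L) (n := n)).comp
      (measurePreserving_inl (κ := Coord M₂ M₂' L n))
    rw [← hmp.map_eq, integral_map hmp.measurable.aemeasurable
      (measurable_lW hf w v u).aestronglyMeasurable]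
    refine integral_congr_ae (ae_of_all _ fun g => ?_)
    simp only [lse, lW, Function.comp_apply]
    rw [← hsub]
    refine congrArg Real.log (Finset.sum_congr rfl fun q _ => ?_)
    have e : ∀ i, dot g (a (i, q)) = dot (fun k => g (.inl k)) (cvec s x (v q) (u q) i) := fun i => by
      simp [ha, dot, Fintype.sum_sum_type]
    simp only [e, Fintype.sum_option, (dot_cvec _ _ _).1, (dot_cvec _ _ _).2, expo, id_eq, hv]
    rw [add_comm]
  have eb : ∫ g, lse (fun q : Y => w q) (expo (n := n) f id) (fun t => dot g (b t))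
      ∂gam (Coord M₁ M₁' L n ⊕ Coord M₂ M₂' L n) = ∫ z, lW w f s x v' u' z ∂pLaw M₂ M₂' L n := by
    have hmp := (measurePreserving_unflat (M := M₂) (M' := M₂') (L := L) (n := n)).comp
      (measurePreserving_inr (ι := Coord M₁ M₁' L n))
    rw [← hmp.map_eq, integral_map hmp.measurable.aemeasurable
      (measurable_lW hf w v' u').aestronglyMeasurable]
    refine integral_congr_ae (ae_of_all _ fun g => ?_)
    simp only [lse, lW, Function.comp_apply]
    rw [← hsub]
    refine congrArg Real.log (Finset.sum_congr rfl fun q _ => ?_)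
    have e : ∀ i, dot g (b (i, q)) = dot (fun k => g (.inr k)) (cvec s x (v' q) (u' q) i) := fun i => by
      simp [hb, dot, Fintype.sum_sum_type]
    simp only [e, Fintype.sum_option, (dot_cvec _ _ _).1, (dot_cvec _ _ _).2, expo, id_eq, hv]
    rw [add_comm]
  rw [ea, eb] at key
  refine key.trans_eq ?_
  simp only [Fintype.sum_option, Finset.sum_const, Finset.card_univ, Fintype.card_fin, nsmul_eq_mul]
  ring

end Vale.Agent.P157.Parisi.Sphere.Cavity
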