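import Vale.Agent.P157.Stein

/-!
Gaussian interpolation for `log ∑ w exp (∑ φ)`: a change of the covariance blocks by at most `δ`
moves the mean by a multiple of `∑ δ`.
-/

noncomputable section

open MeasureTheory ProbabilityTheory Real
open scoped BigOperators

namespace Vale.Agent.P157.Parisi.Sphere.Cavity

variable {α X : Type*} [Fintype α] [Fintype X]

/-- `log ∑ w exp (∑ φ)`. -/
def lse (w : X → ℝ) (φ : α → ℝ → ℝ) (z : α × X → ℝ) : ℝ :=
  log (∑ q, w q * exp (∑ a, φ a (z (a, q))))

/-- The weights at `z`. -/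
def lsp (w : X → ℝ) (φ : α → ℝ → ℝ) (z : α × X → ℝ) (q : X) : ℝ :=
  w q * exp (∑ a, φ a (z (a, q))) / ∑ r, w r * exp (∑ a, φ a (z (a, r)))

/-- The first derivative. -/
def lsD (w : X → ℝ) (φ φ₁ : α → ℝ → ℝ) (z : α × X → ℝ) (t : α × X) : ℝ :=
  lsp w φ z t.2 * φ₁ t.1 (z t)

/-- The derivative of the first derivative along `v`. -/
def lsH (w : X → ℝ) (φ φ₁ φ₂ : α → ℝ → ℝ) (z v : α × X → ℝ) (t : α × X) : ℝ :=
  lsp w φ z t.2 * (φ₂ t.1 (z t) * v t + φ₁ t.1 (z t) *
    ((∑ b, φ₁ b (z (b, t.2)) * v (b, t.2)) -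
      ∑ r, lsp w φ z r * ∑ b, φ₁ b (z (b, r)) * v (b, r)))

/-- Weights, and derivatives of the exponents. -/
structure LseData (w : X → ℝ) (φ φ₁ φ₂ : α → ℝ → ℝ) (B : ℝ) : Prop where
  nonneg : ∀ q, 0 ≤ w q
  pos : 0 < ∑ q, w q
  d1 : ∀ a x, HasDerivAt (φ a) (φ₁ a x) x
  d2 : ∀ a x, HasDerivAt (φ₁ a) (φ₂ a x) x
  m2 : ∀ a, Measurable (φ₂ a)
  B0 : 0 ≤ B
  b1 : ∀ a x, |φ₁ a x| ≤ B
  b2 : ∀ a x, |φ₂ a x| ≤ B

variable {w : X → ℝ} {φ φ₁ φ₂ : α → ℝ → ℝ} {B : ℝ}

namespace LseData

variable (hd : LseData w φ φ₁ φ₂ B)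
include hd

lemma sum_pos (z : α × X → ℝ) : 0 < ∑ r, w r * exp (∑ a, φ a (z (a, r))) := by
  obtain ⟨q, -, hq⟩ := Finset.exists_lt_of_sum_lt (s := Finset.univ) (f := fun _ : X => (0 : ℝ))
    (g := w) (by simpa using hd.pos)
  exact Finset.sum_pos' (fun r _ => mul_nonneg (hd.nonneg r) (exp_pos _).le)
    ⟨q, Finset.mem_univ _, mul_pos hq (exp_pos _)⟩

lemma lsp_nonneg (z : α × X → ℝ) (q : X) : 0 ≤ lsp w φ z q :=
  div_nonneg (mul_nonneg (hd.nonneg q) (exp_pos _).le) (hd.sum_pos z).le

lemma lsp_sum (z : α × X → ℝ) : ∑ q, lsp w φ z q = 1 := by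
  simp only [lsp, ← Finset.sum_div]
  exact div_self (hd.sum_pos z).ne'

lemma lsp_le_one (z : α × X → ℝ) (q : X) : lsp w φ z q ≤ 1 :=
  hd.lsp_sum z ▸ Finset.single_le_sum (fun r _ => hd.lsp_nonneg z r) (Finset.mem_univ q)

lemma cont (a : α) : Continuous (φ a) ∧ Continuous (φ₁ a) :=
  ⟨continuous_iff_continuousAt.2 fun x => (hd.d1 a x).continuousAt,
    continuous_iff_continuousAt.2 fun x => (hd.d2 a x).continuousAt⟩

lemma continuous_lse : Continuous (lse w φ : (α × X → ℝ) → ℝ) := by
  have := fun a => (hd.cont a).1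
  exact Continuous.log (continuous_finsetSum _ fun q _ => continuous_const.mul
    (continuous_finsetSum _ fun a _ => (this a).comp (continuous_apply _)).rexp)
    fun z => (hd.sum_pos z).ne'

lemma continuous_lsp (q : X) : Continuous fun z : α × X → ℝ => lsp w φ z q := by
  have := fun a => (hd.cont a).1
  exact (continuous_const.mul
    (continuous_finsetSum _ fun a _ => (this a).comp (continuous_apply _)).rexp).div
    (continuous_finsetSum _ fun r _ => continuous_const.mul
      (continuous_finsetSum _ fun a _ => (this a).comp (continuous_apply _)).rexp)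
    fun z => (hd.sum_pos z).ne'

lemma continuous_lsD (t : α × X) : Continuous fun z => lsD w φ φ₁ z t :=
  (hd.continuous_lsp t.2).mul ((hd.cont t.1).2.comp (continuous_apply t))

lemma measurable_lsH (v : α × X → ℝ) (t : α × X) :
    Measurable fun z => lsH w φ φ₁ φ₂ z v t := by
  have h1 := fun (b : α) (r : X) => ((hd.cont b).2.measurable.comp
    (measurable_pi_apply (X := fun _ : α × X => ℝ) (b, r))).mul_const (v (b, r))
  exact (hd.continuous_lsp t.2).measurable.mul ((((hd.m2 t.1).comp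
    (measurable_pi_apply t)).mul_const _).add (((hd.cont t.1).2.measurable.comp
    (measurable_pi_apply t)).mul ((Finset.measurable_sum _ fun b _ => h1 b t.2).sub
      (Finset.measurable_sum _ fun r _ => (hd.continuous_lsp r).measurable.mul
        (Finset.measurable_sum _ fun b _ => h1 b r)))))

lemma hasDerivAt_lse {z : ℝ → α × X → ℝ} {v : α × X → ℝ} {s : ℝ}
    (hz : ∀ t, HasDerivAt (fun r => z r t) (v t) s) :
    HasDerivAt (fun r => lse w φ (z r)) (∑ t, lsD w φ φ₁ (z s) t * v t) s := by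
  have h : HasDerivAt (fun r => ∑ q, w q * exp (∑ a, φ a (z r (a, q))))
      (∑ q, w q * (exp (∑ a, φ a (z s (a, q))) * ∑ a, φ₁ a (z s (a, q)) * v (a, q))) s :=
    HasDerivAt.fun_sum fun q _ => ((HasDerivAt.fun_sum fun a _ =>
      (hd.d1 a (z s (a, q))).comp s (hz (a, q))).exp).const_mul (w q)
  refine (h.log (hd.sum_pos _).ne').congr_deriv ?_
  rw [Fintype.sum_prod_type, Finset.sum_comm, Finset.sum_div]
  refine Finset.sum_congr rfl fun q _ => ?_
  simp only [lsD, lsp, Finset.mul_sum, Finset.sum_div]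
  exact Finset.sum_congr rfl fun a _ => by ring

lemma hasDerivAt_lsD {z : ℝ → α × X → ℝ} {v : α × X → ℝ} {s : ℝ}
    (hz : ∀ t, HasDerivAt (fun r => z r t) (v t) s) (t : α × X) :
    HasDerivAt (fun r => lsD w φ φ₁ (z r) t) (lsH w φ φ₁ φ₂ (z s) v t) s := by
  have hE : ∀ q, HasDerivAt (fun r => w q * exp (∑ a, φ a (z r (a, q))))
      (w q * (exp (∑ a, φ a (z s (a, q))) * ∑ a, φ₁ a (z s (a, q)) * v (a, q))) s := fun q =>
    ((HasDerivAt.fun_sum fun a _ => (hd.d1 a (z s (a, q))).comp s (hz (a, q))).exp).const_mul (w q)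
  have hS := hd.sum_pos (z s)
  have hp : HasDerivAt (fun r => lsp w φ (z r) t.2)
      (lsp w φ (z s) t.2 * ((∑ b, φ₁ b (z s (b, t.2)) * v (b, t.2)) -
        ∑ r, lsp w φ (z s) r * ∑ b, φ₁ b (z s (b, r)) * v (b, r))) s := by
    refine ((hE t.2).fun_div (HasDerivAt.fun_sum fun q _ => hE q) hS.ne').congr_deriv ?_
    have e : ∑ r, lsp w φ (z s) r * ∑ b, φ₁ b (z s (b, r)) * v (b, r) =
        (∑ r, w r * (exp (∑ a, φ a (z s (a, r))) * ∑ b, φ₁ b (z s (b, r)) * v (b, r))) /
          ∑ r, w r * exp (∑ a, φ a (z s (a, r))) := by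
      rw [Finset.sum_div]
      exact Finset.sum_congr rfl fun r _ => by rw [lsp]; ring
    rw [e, lsp]
    field_simp
  refine (hp.mul ((hd.d2 t.1 (z s t)).comp s (hz t))).congr_deriv ?_
  simp only [lsH, Function.comp_apply]
  ring

lemma abs_lsH_le {M : ℝ} (z v : α × X → ℝ) (hM : ∀ u, |v u| ≤ M) (t : α × X) :
    |lsH w φ φ₁ φ₂ z v t| ≤ B * M + B * (2 * (Fintype.card α * (B * M))) := by
  have hM0 : 0 ≤ M := (abs_nonneg _).trans (hM t)
  have hB := hd.B0
  have hS : ∀ r, |∑ b, φ₁ b (z (b, r)) * v (b, r)| ≤ Fintype.card α * (B * M) := fun r =>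
    (Finset.abs_sum_le_sum_abs _ _).trans ((Finset.sum_le_card_nsmul _ _ (B * M) fun b _ => by
      rw [abs_mul]; exact mul_le_mul (hd.b1 _ _) (hM _) (abs_nonneg _) hd.B0).trans_eq (by simp))
  have hA : |∑ r, lsp w φ z r * ∑ b, φ₁ b (z (b, r)) * v (b, r)| ≤ Fintype.card α * (B * M) := by
    refine (Finset.abs_sum_le_sum_abs _ _).trans ?_
    calc ∑ r, |lsp w φ z r * ∑ b, φ₁ b (z (b, r)) * v (b, r)|
        ≤ ∑ r, lsp w φ z r * (Fintype.card α * (B * M)) := Finset.sum_le_sum fun r _ => by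
          rw [abs_mul, abs_of_nonneg (hd.lsp_nonneg z r)]
          exact mul_le_mul_of_nonneg_left (hS r) (hd.lsp_nonneg z r)
      _ = _ := by rw [← Finset.sum_mul, hd.lsp_sum, one_mul]
  rw [lsH, abs_mul, abs_of_nonneg (hd.lsp_nonneg z t.2)]
  refine (mul_le_of_le_one_left (abs_nonneg _) (hd.lsp_le_one z t.2)).trans
    ((abs_add_le _ _).trans (add_le_add ?_ ?_))
  · rw [abs_mul]; exact mul_le_mul (hd.b2 _ _) (hM t) (abs_nonneg _) hd.B0
  · rw [abs_mul]
    refine mul_le_mul (hd.b1 _ _) ((abs_sub _ _).trans ?_) (abs_nonneg _) hd.B0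
    linarith [hS t.2]

end LseData

variable {ι : Type*} [Fintype ι]

lemma dot_add_smul (a b : ι → ℝ) (x y : ℝ) (u : ι → ℝ) :
    dot (fun i => x * a i + y * b i) u = x * dot a u + y * dot b u := by
  simp only [dot, Finset.mul_sum, ← Finset.sum_add_distrib]
  exact Finset.sum_congr rfl fun i _ => by ring

lemma dot_comm' (u v : ι → ℝ) : dot u v = dot v u :=
  Finset.sum_congr rfl fun i _ => mul_comm _ _

/-- Comparison of two Gaussian families whose covariances differ only inside the blocks. -/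
theorem lse_compare [DecidableEq α] (hd : LseData w φ φ₁ φ₂ B) (a b : α × X → ι → ℝ)
    (hab : ∀ t u, dot (a t) (b u) = 0) (δ : α → ℝ)
    (hdiag : ∀ i q r, |dot (b (i, q)) (b (i, r)) - dot (a (i, q)) (a (i, r))| ≤ δ i)
    (hoff : ∀ i j q r, i ≠ j → dot (b (i, q)) (b (j, r)) = dot (a (i, q)) (a (j, r))) :
    |∫ g, lse w φ (fun t => dot g (b t)) ∂gam ι - ∫ g, lse w φ (fun t => dot g (a t)) ∂gam ι| ≤
      (B + 2 * B ^ 2) * ∑ i, δ i := by
  classical
  set c : ℝ → α × X → ι → ℝ := fun s t k => cos s * a t k + sin s * b t k with hc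
  set v : ℝ → α × X → ι → ℝ := fun s t k => -sin s * a t k + cos s * b t k with hv
  set C := ∑ t, ∑ k, (|a t k| + |b t k|) with hC
  have hC0 : 0 ≤ C := Finset.sum_nonneg fun t _ => Finset.sum_nonneg fun k _ => by positivity
  have hcv : ∀ x y p q : ℝ, |x| ≤ 1 → |y| ≤ 1 → |x * p + y * q| ≤ |p| + |q| :=
    fun x y p q hx hy => (abs_add_le _ _).trans (add_le_add
      ((abs_mul _ _).trans_le (mul_le_of_le_one_left (abs_nonneg _) hx))
      ((abs_mul _ _).trans_le (mul_le_of_le_one_left (abs_nonneg _) hy)))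
  have hsin : ∀ s, |-sin s| ≤ 1 := fun s => by rw [abs_neg]; exact abs_sin_le_one s
  have hle : ∀ (x : α × X → ι → ℝ), (∀ t k, |x t k| ≤ |a t k| + |b t k|) → ∀ t k, |x t k| ≤ C :=
    fun x hx t k => (hx t k).trans ((Finset.single_le_sum (f := fun k => |a t k| + |b t k|)
      (fun k _ => by positivity) (Finset.mem_univ k)).trans
      (Finset.single_le_sum (f := fun t => ∑ k, (|a t k| + |b t k|))
        (fun t _ => Finset.sum_nonneg fun k _ => by positivity) (Finset.mem_univ t)))
  have hcC : ∀ s t k, |c s t k| ≤ C := fun s => hle (c s) fun t k =>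
    hcv _ _ _ _ (abs_cos_le_one s) (abs_sin_le_one s)
  have hvC : ∀ s t k, |v s t k| ≤ C := fun s => hle (v s) fun t k =>
    hcv _ _ _ _ (hsin s) (abs_cos_le_one s)
  have hlin : ∀ (x : α × X → ι → ℝ), Continuous fun g : ι → ℝ => fun t => dot g (x t) := fun x =>
    continuous_pi fun t => by unfold dot; fun_prop
  have hD : ∀ z t, |lsD w φ φ₁ z t| ≤ B := fun z t => by
    rw [lsD, abs_mul, abs_of_nonneg (hd.lsp_nonneg z t.2)]
    exact (mul_le_of_le_one_left (abs_nonneg _) (hd.lsp_le_one z t.2)).trans (hd.b1 _ _)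
  set F' : ℝ → (ι → ℝ) → ℝ := fun s g =>
    ∑ t, lsD w φ φ₁ (fun u => dot g (c s u)) t * dot g (v s t) with hF'
  set K := Fintype.card (α × X) * B * C with hK
  have hb' : ∀ s g, |F' s g| ≤ K * coordAbs g := fun s g => by
    refine (Finset.abs_sum_le_sum_abs _ _).trans ((Finset.sum_le_card_nsmul _ _
      (B * (coordAbs g * C)) fun t _ => ?_).trans_eq (by simp [hK]; ring))
    rw [abs_mul]
    exact mul_le_mul (hD _ _) (abs_dot_le_coordAbs (hvC s t) g) (abs_nonneg _) hd.B0
  have hm' : ∀ s, Measurable (F' s) := fun s => Finset.measurable_sum _ fun t _ =>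
    ((hd.continuous_lsD t).comp (hlin (c s))).measurable.mul (by unfold dot; fun_prop)
  have hderiv : ∀ g s, HasDerivAt (fun r => lse w φ fun t => dot g (c r t)) (F' s g) s := by
    intro g s
    refine hd.hasDerivAt_lse fun t => ?_
    unfold dot
    exact HasDerivAt.fun_sum fun k _ => (((hasDerivAt_cos s).mul_const (a t k)).add
      ((hasDerivAt_sin s).mul_const (b t k))).const_mul (g k)
  have hbase : Integrable (fun g => lse w φ fun t => dot g (c 0 t)) (gam ι) := by
    have h0 : ∀ z : α × X → ℝ, |lse w φ z - lse w φ 0| ≤ B * ∑ t, |z t| := by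
      intro z
      have hh : ∀ r : ℝ, HasDerivAt (fun r => lse w φ (fun t => r * z t))
          (∑ t, lsD w φ φ₁ (fun u => r * z u) t * z t) r := fun r =>
        hd.hasDerivAt_lse fun t => by simpa using (hasDerivAt_id r).mul_const (z t)
      have hb : ∀ r : ℝ, |∑ t, lsD w φ φ₁ (fun u => r * z u) t * z t| ≤ B * ∑ t, |z t| := fun r => by
        refine (Finset.abs_sum_le_sum_abs _ _).trans ?_
        rw [Finset.mul_sum]
        exact Finset.sum_le_sum fun t _ => by
          rw [abs_mul]; exact mul_le_mul_of_nonneg_right (hD _ _) (abs_nonneg _)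
      have h := convex_univ.norm_image_sub_le_of_norm_hasDerivWithin_le
        (fun r _ => (hh r).hasDerivWithinAt) (fun r _ => by simpa using hb r)
        (Set.mem_univ (0 : ℝ)) (Set.mem_univ (1 : ℝ))
      simpa [Pi.zero_def] using h
    refine ((integrable_const |lse w φ (0 : α × X → ℝ)|).add
      ((integrable_coordAbs (ι := ι)).const_mul (B * (Fintype.card (α × X) * C)))).mono'
      (hd.continuous_lse.comp (hlin (c 0))).aestronglyMeasurable (ae_of_all _ fun g => ?_)
    have h1 := h0 fun t => dot g (c 0 t)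
    have h2 : ∑ t, |dot g (c 0 t)| ≤ Fintype.card (α × X) * (coordAbs g * C) :=
      (Finset.sum_le_card_nsmul _ _ _ fun t _ => abs_dot_le_coordAbs (hcC 0 t) g).trans_eq
        (by simp)
    have h3 := mul_le_mul_of_nonneg_left h2 hd.B0
    rw [Real.norm_eq_abs, Pi.add_apply]
    linarith [abs_sub_abs_le_abs_sub (lse w φ fun t => dot g (c 0 t)) (lse w φ 0)]
  have hint : ∀ s, Integrable (fun g => lse w φ fun t => dot g (c s t)) (gam ι) := by
    intro s
    refine (hbase.abs.add ((integrable_coordAbs (ι := ι)).const_mul (K * |s|))).mono'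
      (hd.continuous_lse.comp (hlin (c s))).aestronglyMeasurable (ae_of_all _ fun g => ?_)
    have h := convex_univ.norm_image_sub_le_of_norm_hasDerivWithin_le
      (fun r _ => (hderiv g r).hasDerivWithinAt) (fun r _ => hb' r g)
      (Set.mem_univ (0 : ℝ)) (Set.mem_univ s)
    rw [Real.norm_eq_abs, Real.norm_eq_abs, sub_zero] at h
    rw [Real.norm_eq_abs, Pi.add_apply]
    have e : K * coordAbs g * |s| = K * |s| * coordAbs g := by ring
    linarith [abs_sub_abs_le_abs_sub (lse w φ fun t => dot g (c s t))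
      (lse w φ fun t => dot g (c 0 t))]
  have hG : ∀ s, HasDerivAt (fun r => ∫ g, lse w φ (fun t => dot g (c r t)) ∂gam ι)
      (∫ g, F' s g ∂gam ι) s := fun s =>
    (hasDerivAt_integral_of_dominated_loc_of_deriv_le (μ := gam ι) Filter.univ_mem
      (F := fun r g => lse w φ fun t => dot g (c r t)) (bound := fun g => K * coordAbs g)
      (Filter.Eventually.of_forall fun r =>
        (hd.continuous_lse.comp (hlin (c r))).aestronglyMeasurable) (hint s)
      (hm' s).aestronglyMeasurable (ae_of_all _ fun g r _ => hb' r g)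
      (integrable_coordAbs.const_mul K) (ae_of_all _ fun g r _ => hderiv g r)).2
  have hG' : ∀ s, |∫ g, F' s g ∂gam ι| ≤ (B + 2 * B ^ 2) * (∑ i, δ i) / 2 := by
    intro s
    set W : α × X → α × X → ℝ := fun t u => dot (c s u) (v s t) with hW
    have hWv : ∀ t u, W t u = sin s * cos s * (dot (b u) (b t) - dot (a u) (a t)) := by
      intro t u
      simp only [hW, hc, hv, dot_add_smul]
      rw [dot_comm' (a u), dot_comm' (b u), dot_add_smul, dot_add_smul, dot_comm' (a t) (a u),
        dot_comm' (b t) (b u), dot_comm' (b t) (a u), hab u t, hab t u]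
      ring
    have hsc : |sin s * cos s| ≤ 1 / 2 := by
      rw [abs_le]
      constructor <;> nlinarith [sin_sq_add_cos_sq s, sq_nonneg (sin s + cos s),
        sq_nonneg (sin s - cos s)]
    set I : α × X → (ι → ℝ) → ℝ :=
      fun t g => lsH w φ φ₁ φ₂ (fun u => dot g (c s u)) (W t) t with hI
    have hz : Measurable fun g : ι → ℝ => fun u => dot g (c s u) := (hlin (c s)).measurable
    have hIi : ∀ t, Integrable (I t) (gam ι) := fun t =>
      integrable_of_abs_le ((hd.measurable_lsH _ t).comp hz) fun g =>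
        hd.abs_lsH_le _ _ (M := ∑ u, |W t u|) (fun u => Finset.single_le_sum
          (f := fun u => |W t u|) (fun u _ => abs_nonneg _) (Finset.mem_univ u)) t
    have hparts : ∫ g, F' s g ∂gam ι = ∫ g, ∑ t, I t g ∂gam ι := by
      have hi : ∀ t, Integrable
          (fun g => lsD w φ φ₁ (fun u => dot g (c s u)) t * dot g (v s t)) (gam ι) := fun t => by
        refine ((integrable_coordAbs (ι := ι)).const_mul (B * C)).mono'
          (((hd.continuous_lsD t).comp (hlin (c s))).mul (by unfold dot; fun_prop)).aestronglyMeasurable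
          (ae_of_all _ fun g => ?_)
        rw [Real.norm_eq_abs, abs_mul]
        exact (mul_le_mul (hD _ _) (abs_dot_le_coordAbs (hvC s t) g) (abs_nonneg _) hd.B0).trans_eq
          (by ring)
      simp only [hF']
      rw [integral_finsetSum _ fun t _ => hi t, integral_finsetSum _ fun t _ => hIi t]
      refine Finset.sum_congr rfl fun t _ => ?_
      have hp := integral_dot_mul (v s t) (G := fun g => lsD w φ φ₁ (fun u => dot g (c s u)) t)
        (G' := fun i g => lsH w φ φ₁ φ₂ (fun u => dot g (c s u)) (fun u => c s u i) t)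
        (A := B) (A' := B * C + B * (2 * (Fintype.card α * (B * C))))
        ((hd.continuous_lsD t).comp (hlin (c s))).measurable
        (fun i => (hd.measurable_lsH (fun u => c s u i) t).comp hz) (fun g => hD _ _)
        (fun i g => hd.abs_lsH_le _ _ (fun u => hcC s u i) t) (fun g i => by
          have h : ∀ u, HasDerivAt (fun r => dot (Function.update g i r) (c s u)) (c s u i) (g i) := by
            intro u
            refine (HasDerivAt.fun_sum fun j _ =>
              ((hasDerivAt_pi.mp (hasDerivAt_update g i (g i)) j).mul_const (c s u j))).congr_deriv ?_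
            simp [Pi.single_apply]
          simpa using hd.hasDerivAt_lsD (φ₂ := φ₂) h t)
      rw [show (∫ g, lsD w φ φ₁ (fun u => dot g (c s u)) t * dot g (v s t) ∂gam ι) =
        ∫ g, dot g (v s t) * lsD w φ φ₁ (fun u => dot g (c s u)) t ∂gam ι by
          simp only [mul_comm (lsD _ _ _ _ _)], hp]
      congr 1
      funext g
      simp only [hI, lsH, hW, dot, Finset.mul_sum, mul_add, mul_sub, Finset.sum_add_distrib,
        Finset.sum_sub_distrib]
      congr 1
      · exact Finset.sum_congr rfl fun i _ => by ring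
      congr 1
      · rw [Finset.sum_comm]
        exact Finset.sum_congr rfl fun _ _ => Finset.sum_congr rfl fun i _ => by ring
      · rw [Finset.sum_comm]
        refine Finset.sum_congr rfl fun r _ => ?_
        rw [Finset.sum_comm]
        exact Finset.sum_congr rfl fun _ _ => Finset.sum_congr rfl fun i _ => by ring
    rw [hparts]
    refine (abs_integral_le_integral_abs).trans ((integral_mono
      (integrable_finsetSum _ fun t _ => hIi t).abs
      (integrable_const ((B + 2 * B ^ 2) * (∑ i, δ i) / 2)) fun g => ?_).trans_eq (by simp))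
    set z := fun u => dot g (c s u)
    have hδ : ∀ i, X → 0 ≤ δ i := fun i q => (abs_nonneg _).trans (hdiag i q q)
    have hone : ∀ i q, |I (i, q) g| ≤ lsp w φ z q * ((B + 2 * B ^ 2) * δ i / 2) := by
      intro i q
      have hW0 : ∀ j r, j ≠ i → W (i, q) (j, r) = 0 := fun j r h => by
        rw [hWv, hoff j i r q h, sub_self, mul_zero]
      have hW1 : ∀ r, |W (i, q) (i, r)| ≤ δ i / 2 := fun r => by
        rw [hWv, abs_mul]
        exact (mul_le_mul hsc (hdiag i r q) (abs_nonneg _) (by norm_num)).trans_eq (by ring)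
      have hsum : ∀ r, ∑ j, φ₁ j (z (j, r)) * W (i, q) (j, r) =
          φ₁ i (z (i, r)) * W (i, q) (i, r) := fun r =>
        Finset.sum_eq_single i (fun j _ h => by rw [hW0 j r h, mul_zero]) (by simp)
      show |lsH w φ φ₁ φ₂ z (W (i, q)) (i, q)| ≤ _
      simp only [lsH, hsum]
      rw [abs_mul, abs_of_nonneg (hd.lsp_nonneg z q)]
      refine mul_le_mul_of_nonneg_left ?_ (hd.lsp_nonneg z q)
      have hB := hd.B0
      have hδ0 := hδ i q
      have hterm : ∀ r, |φ₁ i (z (i, r)) * W (i, q) (i, r)| ≤ B * (δ i / 2) := fun r => by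
        rw [abs_mul]; exact mul_le_mul (hd.b1 _ _) (hW1 r) (abs_nonneg _) hd.B0
      have hav : |∑ r, lsp w φ z r * (φ₁ i (z (i, r)) * W (i, q) (i, r))| ≤ B * (δ i / 2) := by
        refine (Finset.abs_sum_le_sum_abs _ _).trans ((Finset.sum_le_sum
          (g := fun r => lsp w φ z r * (B * (δ i / 2))) fun r _ => ?_).trans_eq ?_)
        · rw [abs_mul, abs_of_nonneg (hd.lsp_nonneg z r)]
          exact mul_le_mul_of_nonneg_left (hterm r) (hd.lsp_nonneg z r)
        · rw [← Finset.sum_mul, hd.lsp_sum, one_mul]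
      refine (abs_add_le _ _).trans ((add_le_add (a := |φ₂ i (z (i, q)) * W (i, q) (i, q)|)
        (b := B * (δ i / 2)) ?_ (?_ : _ ≤ B * (B * (δ i / 2) + B * (δ i / 2)))).trans_eq (by ring))
      · rw [abs_mul]; exact mul_le_mul (hd.b2 _ _) (hW1 q) (abs_nonneg _) hd.B0
      · rw [abs_mul]
        exact mul_le_mul (hd.b1 _ _) ((abs_sub _ _).trans (add_le_add (hterm q) hav))
          (abs_nonneg _) hd.B0
    refine (Finset.abs_sum_le_sum_abs _ _).trans ?_
    rw [Fintype.sum_prod_type, Finset.mul_sum, Finset.sum_div]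
    refine Finset.sum_le_sum fun i _ => ((Finset.sum_le_sum fun q _ => hone i q).trans_eq ?_)
    rw [← Finset.sum_mul, hd.lsp_sum, one_mul]
  have hmv := convex_univ.norm_image_sub_le_of_norm_hasDerivWithin_le
    (fun s _ => (hG s).hasDerivWithinAt)
    (fun s _ => by simpa [Real.norm_eq_abs] using hG' s)
    (Set.mem_univ (0 : ℝ)) (Set.mem_univ (π / 2))
  have hc0 : c 0 = a := by funext t k; simp [hc]
  have hc1 : c (π / 2) = b := by funext t k; simp [hc]
  simp only [hc0, hc1, Real.norm_eq_abs, sub_zero, abs_of_pos (half_pos pi_pos)] at hmv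
  refine hmv.trans ?_
  have hX : Nonempty X := not_isEmpty_iff.1 fun h => by simpa using hd.pos
  have h0 : 0 ≤ (B + 2 * B ^ 2) * ∑ i, δ i := mul_nonneg
    (by linarith [sq_nonneg B, hd.B0]) (Finset.sum_nonneg fun i _ =>
      (abs_nonneg _).trans (hdiag i (Classical.arbitrary X) (Classical.arbitrary X)))
  nlinarith [pi_le_four]

end Vale.Agent.P157.Parisi.Sphere.Cavity
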